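import Mathlib

/-!
# Soft-O exponent calculus (row 326, top level asymptotics)

`SO f a` : the function `f : ℕ → ℕ` of the parameter `L` is `O(L^(a+δ))` for every `δ > 0`.
Closed under sums (max), products (sum of the exponents), powers, real powers `pw τ`,
and logarithms (`Nat.size`, `Nat.log`, `Nat.clog` of anything polynomial have exponent `0`).
-/

set_option autoImplicit false

namespace Crest.Agent.X326

open Filter

/-- `pw τ x = ⌈x ^ τ⌉`, the natural number used to write real powers in cost bounds. -/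
noncomputable def pw (τ : ℝ) (x : ℕ) : ℕ := ⌈(x : ℝ) ^ τ⌉₊

theorem le_pw (τ : ℝ) (x : ℕ) : (x : ℝ) ^ τ ≤ pw τ x := Nat.le_ceil _

theorem pw_le (τ : ℝ) (x : ℕ) : (pw τ x : ℝ) ≤ (x : ℝ) ^ τ + 1 :=
  (Nat.ceil_lt_add_one (Real.rpow_nonneg (Nat.cast_nonneg x) τ)).le

theorem pw_mono {τ : ℝ} (hτ : 0 ≤ τ) {x y : ℕ} (h : x ≤ y) : pw τ x ≤ pw τ y :=
  Nat.ceil_mono (Real.rpow_le_rpow (Nat.cast_nonneg x) (by exact_mod_cast h) hτ)

theorem pw_mono_exp {σ τ : ℝ} (hσ : 0 < σ) (h : σ ≤ τ) (x : ℕ) : pw σ x ≤ pw τ x := by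
  rcases Nat.eq_zero_or_pos x with rfl | hx
  · simp [pw, Real.zero_rpow hσ.ne']
  · exact Nat.ceil_mono (Real.rpow_le_rpow_of_exponent_le (by exact_mod_cast hx) h)

theorem one_le_pw (τ : ℝ) {x : ℕ} (hx : 0 < x) : 1 ≤ pw τ x :=
  Nat.one_le_iff_ne_zero.2 (Nat.ceil_pos.2 (Real.rpow_pos_of_pos (by exact_mod_cast hx) τ)).ne'

theorem pw_le_two_mul {τ : ℝ} (hτ : 0 ≤ τ) {x : ℕ} (hx : 0 < x) :
    (pw τ x : ℝ) ≤ 2 * (x : ℝ) ^ τ := by
  have h1 : (1 : ℝ) ≤ (x : ℝ) ^ τ := Real.one_le_rpow (by exact_mod_cast hx) hτ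
  have := pw_le τ x
  linarith

theorem pw_le_self {τ : ℝ} (h0 : 0 < τ) (h1 : τ ≤ 1) (x : ℕ) : pw τ x ≤ x := by
  refine (pw_mono_exp h0 h1 x).trans ?_
  simp [pw]

theorem pw_mul_le {τ : ℝ} (x y : ℕ) : pw τ (x * y) ≤ pw τ x * pw τ y := by
  unfold pw
  rw [Nat.ceil_le, Nat.cast_mul, Real.mul_rpow (Nat.cast_nonneg x) (Nat.cast_nonneg y),
    Nat.cast_mul]
  exact mul_le_mul (Nat.le_ceil _) (Nat.le_ceil _) (Real.rpow_nonneg (Nat.cast_nonneg y) τ)
    (Nat.cast_nonneg _)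

/-- `f L = O(L ^ (a + δ))` for every `δ > 0`. -/
def SO (f : ℕ → ℕ) (a : ℝ) : Prop :=
  ∀ δ : ℝ, 0 < δ → ∃ C : ℝ, 0 ≤ C ∧ ∀ᶠ L : ℕ in atTop, (f L : ℝ) ≤ C * (L : ℝ) ^ (a + δ)

namespace SO

variable {f g : ℕ → ℕ} {a b : ℝ}

theorem of_le (h : ∀ᶠ L in atTop, f L ≤ g L) (hg : SO g a) : SO f a := by
  intro δ hδ
  obtain ⟨C, hC, h'⟩ := hg δ hδ
  refine ⟨C, hC, ?_⟩
  filter_upwards [h, h'] with L h1 h2
  exact le_trans (by exact_mod_cast h1) h2

theorem of_le' (h : ∀ L, f L ≤ g L) (hg : SO g a) : SO f a := of_le (Eventually.of_forall h) hg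

/-- a real bound `f L ≤ C * L ^ a` -/
theorem of_bound (C : ℝ) (h : ∀ᶠ L : ℕ in atTop, (f L : ℝ) ≤ C * (L : ℝ) ^ a) : SO f a := by
  intro δ hδ
  refine ⟨max C 0, le_max_right _ _, ?_⟩
  filter_upwards [h, eventually_ge_atTop 1] with L h1 h2
  have h3 : (1 : ℝ) ≤ L := by exact_mod_cast h2
  refine h1.trans ?_
  calc C * (L : ℝ) ^ a ≤ max C 0 * (L : ℝ) ^ a :=
        mul_le_mul_of_nonneg_right (le_max_left _ _) (Real.rpow_nonneg (by linarith) _)
    _ ≤ max C 0 * (L : ℝ) ^ (a + δ) :=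
        mul_le_mul_of_nonneg_left (Real.rpow_le_rpow_of_exponent_le h3 (by linarith))
          (le_max_right _ _)

theorem mono (hf : SO f a) (hab : a ≤ b) : SO f b := by
  intro δ hδ
  obtain ⟨C, hC, h⟩ := hf δ hδ
  refine ⟨C, hC, ?_⟩
  filter_upwards [h, eventually_ge_atTop 1] with L h1 h2
  have h3 : (1 : ℝ) ≤ L := by exact_mod_cast h2
  exact h1.trans (mul_le_mul_of_nonneg_left
    (Real.rpow_le_rpow_of_exponent_le h3 (by linarith)) hC)

theorem const (c : ℕ) : SO (fun _ => c) 0 :=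
  of_bound c (Eventually.of_forall fun L => by simp)

theorem id : SO (fun L => L) 1 :=
  of_bound 1 (Eventually.of_forall fun L => by simp)

theorem add (hf : SO f a) (hg : SO g a) : SO (fun L => f L + g L) a := by
  intro δ hδ
  obtain ⟨C, hC, h⟩ := hf δ hδ
  obtain ⟨C', hC', h'⟩ := hg δ hδ
  refine ⟨C + C', by positivity, ?_⟩
  filter_upwards [h, h'] with L h1 h2
  push_cast
  linarith

theorem add_max (hf : SO f a) (hg : SO g b) : SO (fun L => f L + g L) (max a b) :=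
  (hf.mono (le_max_left _ _)).add (hg.mono (le_max_right _ _))

theorem add_const (hf : SO f a) (ha : 0 ≤ a) (c : ℕ) : SO (fun L => f L + c) a :=
  hf.add ((const c).mono ha)

theorem sub (hf : SO f a) (g : ℕ → ℕ) : SO (fun L => f L - g L) a :=
  of_le' (fun _ => Nat.sub_le _ _) hf

theorem div (hf : SO f a) (g : ℕ → ℕ) : SO (fun L => f L / g L) a :=
  of_le' (fun _ => Nat.div_le_self _ _) hf

theorem max (hf : SO f a) (hg : SO g a) : SO (fun L => max (f L) (g L)) a :=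
  of_le' (fun _ => by omega) (hf.add hg)

theorem mul (hf : SO f a) (hg : SO g b) : SO (fun L => f L * g L) (a + b) := by
  intro δ hδ
  obtain ⟨C, hC, h⟩ := hf (δ / 2) (by linarith)
  obtain ⟨C', hC', h'⟩ := hg (δ / 2) (by linarith)
  refine ⟨C * C', by positivity, ?_⟩
  filter_upwards [h, h', eventually_ge_atTop 1] with L h1 h2 h3
  have h4 : (0 : ℝ) < L := by exact_mod_cast h3
  have e : (L : ℝ) ^ (a + b + δ) = (L : ℝ) ^ (a + δ / 2) * (L : ℝ) ^ (b + δ / 2) := by
    rw [← Real.rpow_add h4]; congr 1; ring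
  rw [e, Nat.cast_mul]
  calc (f L : ℝ) * g L ≤ (C * (L : ℝ) ^ (a + δ / 2)) * (C' * (L : ℝ) ^ (b + δ / 2)) :=
        mul_le_mul h1 h2 (Nat.cast_nonneg _) (by positivity)
    _ = _ := by ring

theorem mul_le {c : ℝ} (hf : SO f a) (hg : SO g b) (h : a + b ≤ c) :
    SO (fun L => f L * g L) c := (hf.mul hg).mono h

theorem const_mul (c : ℕ) (hf : SO f a) : SO (fun L => c * f L) a :=
  ((const c).mul hf).mono (by simp)

theorem mul_const (hf : SO f a) (c : ℕ) : SO (fun L => f L * c) a :=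
  (hf.mul (const c)).mono (by simp)

/-- multiply by a factor of exponent `0` -/
theorem mul_zero' (hf : SO f a) (hg : SO g 0) : SO (fun L => f L * g L) a :=
  (hf.mul hg).mono (by simp)

theorem zero_mul' (hf : SO f 0) (hg : SO g a) : SO (fun L => f L * g L) a :=
  (hf.mul hg).mono (by simp)

theorem pow (hf : SO f a) (n : ℕ) : SO (fun L => f L ^ n) (n * a) := by
  induction n with
  | zero => simpa using const 1
  | succ n ih =>
    have := ih.mul hf
    simp only [← pow_succ] at this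
    refine this.mono (le_of_eq ?_)
    push_cast; ring

theorem pow_zero' (hf : SO f 0) (n : ℕ) : SO (fun L => f L ^ n) 0 := by simpa using hf.pow n

theorem pw (hf : SO f a) (ha : 0 ≤ a) {τ : ℝ} (hτ : 0 ≤ τ) :
    SO (fun L => X326.pw τ (f L)) (τ * a) := by
  intro δ hδ
  obtain ⟨C, hC, h⟩ := hf (δ / (τ + 1)) (by positivity)
  refine ⟨C ^ τ + 1, by positivity, ?_⟩
  filter_upwards [h, eventually_ge_atTop 1] with L h1 h3
  have h4 : (1 : ℝ) ≤ L := by exact_mod_cast h3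
  have h5 : (f L : ℝ) ^ τ ≤ C ^ τ * (L : ℝ) ^ (τ * a + δ) := by
    calc (f L : ℝ) ^ τ ≤ (C * (L : ℝ) ^ (a + δ / (τ + 1))) ^ τ :=
          Real.rpow_le_rpow (Nat.cast_nonneg _) h1 hτ
      _ = C ^ τ * (L : ℝ) ^ ((a + δ / (τ + 1)) * τ) := by
          rw [Real.mul_rpow hC (by positivity), ← Real.rpow_mul (by linarith)]
      _ ≤ C ^ τ * (L : ℝ) ^ (τ * a + δ) := by
          refine mul_le_mul_of_nonneg_left (Real.rpow_le_rpow_of_exponent_le h4 ?_)
            (by positivity)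
          have : δ / (τ + 1) * τ ≤ δ := by
            rw [div_mul_eq_mul_div, div_le_iff₀ (by linarith)]
            nlinarith
          nlinarith
  have h6 : (1 : ℝ) ≤ (L : ℝ) ^ (τ * a + δ) := Real.one_le_rpow h4 (by positivity)
  have := pw_le τ (f L)
  nlinarith

theorem pw_zero' (hf : SO f 0) {τ : ℝ} (hτ : 0 ≤ τ) : SO (fun L => X326.pw τ (f L)) 0 := by
  simpa using hf.pw le_rfl hτ

/-- `log₂ x ≤ x ^ δ / δ`, in the form used here -/
theorem size_le_rpow {δ : ℝ} (hδ : 0 < δ) (x : ℕ) :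
    (Nat.size x : ℝ) ≤ (2 / δ + 1) * (x : ℝ) ^ δ := by
  rcases Nat.eq_zero_or_pos x with rfl | hx
  · simp; positivity
  have hx1 : (1 : ℝ) ≤ x := by exact_mod_cast hx
  have h1 : 2 ^ (Nat.size x - 1) ≤ x := by
    have := Nat.lt_size.1 (show Nat.size x - 1 < Nat.size x from by
      have := Nat.size_pos.2 hx; omega)
    exact this
  have h2 : ((Nat.size x - 1 : ℕ) : ℝ) * Real.log 2 ≤ Real.log x := by
    rw [← Real.log_pow]
    exact Real.log_le_log (by positivity) (by exact_mod_cast h1)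
  have h3 : Real.log x ≤ (x : ℝ) ^ δ / δ := Real.log_le_rpow_div (by linarith) hδ
  have h4 : (1 : ℝ) / 2 ≤ Real.log 2 := by have := Real.log_two_gt_d9; linarith
  have h5 : (1 : ℝ) ≤ (x : ℝ) ^ δ := Real.one_le_rpow hx1 hδ.le
  have h6 : ((Nat.size x - 1 : ℕ) : ℝ) = Nat.size x - 1 := by
    have := Nat.size_pos.2 hx
    rw [Nat.cast_sub this]; simp
  rw [h6] at h2
  have h7 : (0 : ℝ) ≤ Nat.size x - 1 := by
    have : (1 : ℝ) ≤ Nat.size x := by exact_mod_cast Nat.size_pos.2 hx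
    linarith
  have h8 : (Nat.size x - 1 : ℝ) ≤ 2 * ((x : ℝ) ^ δ / δ) := by nlinarith
  have h9 : 2 * ((x : ℝ) ^ δ / δ) = 2 / δ * (x : ℝ) ^ δ := by ring
  nlinarith

/-- the bit length of a polynomially bounded quantity has exponent `0` -/
theorem size (hf : SO f a) : SO (fun L => Nat.size (f L)) 0 := by
  have hf' : SO f (Max.max a 0) := hf.mono (le_max_left _ _)
  have ha : 0 ≤ Max.max a 0 := le_max_right _ _
  generalize Max.max a 0 = c at hf' ha
  intro δ hδ
  have hε : 0 < δ / (2 * (c + 1)) := by positivity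
  obtain ⟨C, hC, h⟩ := (hf'.pw ha hε.le) (δ / 2) (by linarith)
  refine ⟨(2 / (δ / (2 * (c + 1))) + 1) * C, by positivity, ?_⟩
  filter_upwards [h, eventually_ge_atTop 1] with L h1 h3
  have h4 : (1 : ℝ) ≤ L := by exact_mod_cast h3
  have h5 := size_le_rpow hε (f L)
  have h6 := le_pw (δ / (2 * (c + 1))) (f L)
  have h7 : (L : ℝ) ^ (δ / (2 * (c + 1)) * c + δ / 2) ≤ (L : ℝ) ^ (0 + δ) := by
    refine Real.rpow_le_rpow_of_exponent_le h4 ?_
    have : δ / (2 * (c + 1)) * c ≤ δ / 2 := by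
      rw [div_mul_eq_mul_div, div_le_div_iff₀ (by positivity) (by positivity)]
      nlinarith
    linarith
  have h8 : (0 : ℝ) ≤ 2 / (δ / (2 * (c + 1))) + 1 := by positivity
  calc (Nat.size (f L) : ℝ) ≤ _ := h5
    _ ≤ (2 / (δ / (2 * (c + 1))) + 1) * (C * (L : ℝ) ^ (0 + δ)) := by
        refine mul_le_mul_of_nonneg_left (h6.trans (h1.trans ?_)) h8
        exact mul_le_mul_of_nonneg_left h7 hC
    _ = _ := by ring

theorem log_le_size (b x : ℕ) : Nat.log b x ≤ Nat.size x := by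
  rcases Nat.lt_or_ge 1 b with hb | hb
  · rcases Nat.eq_zero_or_pos x with rfl | hx
    · simp
    · have h1 : b ^ Nat.log b x ≤ x := Nat.pow_log_le_self b hx.ne'
      have h2 : 2 ^ Nat.log b x ≤ b ^ Nat.log b x := Nat.pow_le_pow_left hb _
      exact (Nat.lt_size.2 (h2.trans h1)).le
  · simp [Nat.log_of_left_le_one hb]

theorem clog_le_size (b x : ℕ) : Nat.clog b x ≤ Nat.size x := by
  rcases Nat.lt_or_ge 1 b with hb | hb
  · refine (Nat.clog_le_iff_le_pow hb).2 ?_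
    exact (Nat.lt_size_self x).le.trans (Nat.pow_le_pow_left hb _)
  · simp [Nat.clog_of_left_le_one hb]

theorem log (hf : SO f a) (b : ℕ) : SO (fun L => Nat.log b (f L)) 0 :=
  of_le' (fun _ => log_le_size _ _) hf.size

theorem clog (hf : SO f a) (b : ℕ) : SO (fun L => Nat.clog b (f L)) 0 :=
  of_le' (fun _ => clog_le_size _ _) hf.size

/-- the bit length of something below `2 ^ g` -/
theorem size_of_le_two_pow (h : ∀ᶠ L in atTop, f L ≤ 2 ^ g L) (hg : SO g a) (ha : 0 ≤ a) :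
    SO (fun L => Nat.size (f L)) a := by
  refine of_le ?_ (hg.add_const ha 1)
  filter_upwards [h] with L h1
  refine Nat.size_le.2 (lt_of_le_of_lt h1 ?_)
  exact Nat.pow_lt_pow_right (by norm_num) (Nat.lt_succ_self _)

theorem size_mul (hf : SO (fun L => Nat.size (f L)) a) (hg : SO (fun L => Nat.size (g L)) a) :
    SO (fun L => Nat.size (f L * g L)) a := by
  refine of_le' (fun L => ?_) (hf.add hg)
  refine Nat.size_le.2 ?_
  rw [pow_add]
  exact Nat.mul_lt_mul'' (Nat.lt_size_self _) (Nat.lt_size_self _)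

theorem two_pow_clog (hf : SO f a) (ha : 0 ≤ a) : SO (fun L => 2 ^ Nat.clog 2 (f L)) a := by
  refine of_le' (fun L => ?_) ((hf.const_mul 2).add_const ha 1)
  rcases Nat.lt_or_ge 1 (f L) with h | h
  · have h1 := Nat.pow_pred_clog_lt_self (b := 2) (by norm_num) h
    have h2 : 0 < Nat.clog 2 (f L) := Nat.clog_pos (by norm_num) h
    have h3 : 2 ^ Nat.clog 2 (f L) = 2 * 2 ^ (Nat.clog 2 (f L)).pred := by
      rw [← pow_succ']; congr 1; simp; omega
    omega
  · rw [Nat.clog_of_right_le_one h]; simp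

theorem two_pow_size (hf : SO f a) (ha : 0 ≤ a) : SO (fun L => 2 ^ Nat.size (f L)) a := by
  refine of_le' (fun L => ?_) ((hf.const_mul 2).add_const ha 1)
  rcases Nat.eq_zero_or_pos (f L) with h | h
  · simp [h]
  · have h0 := Nat.size_pos.2 h
    have h1 : 2 ^ (Nat.size (f L) - 1) ≤ f L := Nat.lt_size.1 (by omega)
    have h3 : 2 ^ Nat.size (f L) = 2 * 2 ^ (Nat.size (f L) - 1) := by
      rw [← pow_succ']; congr 1; omega
    omega

/-- finite sums of functions with a common exponent -/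
theorem sum {ι : Type} (s : Finset ι) {F : ι → ℕ → ℕ} (h : ∀ i ∈ s, SO (F i) a) (ha : 0 ≤ a) :
    SO (fun L => ∑ i ∈ s, F i L) a := by
  classical
  induction s using Finset.induction_on with
  | empty => simpa using (const 0).mono ha
  | insert i s hi ih =>
    simp only [Finset.sum_insert hi]
    exact (h i (by simp)).add (ih fun j hj => h j (by simp [hj]))

/-- extraction: a strictly larger exponent gives a true `O` bound with a natural constant -/
theorem bound (hf : SO f a) (hab : a < b) :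
    ∃ C : ℕ, ∀ᶠ L : ℕ in atTop, (f L : ℝ) ≤ C * (L : ℝ) ^ b := by
  obtain ⟨C, hC, h⟩ := hf (b - a) (by linarith)
  refine ⟨⌈C⌉₊, ?_⟩
  filter_upwards [h] with L h1
  rw [show a + (b - a) = b by ring] at h1
  exact h1.trans (mul_le_mul_of_nonneg_right (Nat.le_ceil C) (by positivity))

/-- a smaller exponent is eventually below `L ^ b` -/
theorem eventually_le_rpow (hf : SO f a) (hab : a < b) :
    ∀ᶠ L : ℕ in atTop, (f L : ℝ) ≤ (L : ℝ) ^ b := by
  obtain ⟨C, hC, h⟩ := hf ((b - a) / 2) (by linarith)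
  have ht : Tendsto (fun L : ℕ => (L : ℝ) ^ ((b - a) / 2)) atTop atTop :=
    (tendsto_rpow_atTop (by linarith)).comp tendsto_natCast_atTop_atTop
  filter_upwards [h, ht.eventually_ge_atTop C, eventually_ge_atTop 1] with L h1 h2 h3
  have h4 : (0 : ℝ) < L := by exact_mod_cast h3
  have e : (L : ℝ) ^ b = (L : ℝ) ^ ((b - a) / 2) * (L : ℝ) ^ (a + (b - a) / 2) := by
    rw [← Real.rpow_add h4]; congr 1; ring
  rw [e]
  exact h1.trans (mul_le_mul_of_nonneg_right h2 (by positivity))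

/-- exponent below one: eventually at most `L` -/
theorem eventually_le_self (hf : SO f a) (ha : a < 1) : ∀ᶠ L : ℕ in atTop, f L ≤ L := by
  filter_upwards [hf.eventually_le_rpow ha] with L h
  rw [Real.rpow_one] at h
  exact_mod_cast h

/-- comparison with a quantity bounded below by a larger power -/
theorem eventually_le (hf : SO f a) (hab : a < b) {c : ℝ} (hc : 0 < c)
    (hg : ∀ᶠ L : ℕ in atTop, c * (L : ℝ) ^ b ≤ g L) : ∀ᶠ L : ℕ in atTop, f L ≤ g L := by
  have h1 : SO (fun L => ⌈c⁻¹⌉₊ * f L) a := hf.const_mul _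
  filter_upwards [h1.eventually_le_rpow hab, hg] with L h2 h3
  have h4 : c⁻¹ * (f L : ℝ) ≤ (L : ℝ) ^ b := by
    refine le_trans ?_ h2
    push_cast
    exact mul_le_mul_of_nonneg_right (Nat.le_ceil _) (Nat.cast_nonneg _)
  have h5 : (f L : ℝ) ≤ c * (L : ℝ) ^ b := by
    have := mul_le_mul_of_nonneg_left h4 hc.le
    rwa [← mul_assoc, mul_inv_cancel₀ hc.ne', one_mul] at this
  exact_mod_cast h5.trans h3

/-- anything polynomial is eventually below `2 ^ g` when `g` grows like a power -/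
theorem eventually_lt_two_pow (hf : SO f a) {c : ℝ} (hb : 0 < b) (hc : 0 < c)
    (hg : ∀ᶠ L : ℕ in atTop, c * (L : ℝ) ^ b ≤ g L) : ∀ᶠ L : ℕ in atTop, f L < 2 ^ g L := by
  filter_upwards [hf.size.eventually_le hb hc hg] with L h
  exact Nat.size_le.1 h

end SO

end Crest.Agent.X326
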