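import Crest.Agent.X326.Top.Glue
import Crest.Agent.X326.Mul.SpecConv

/-!
# Row 326: the multiplication statement from the layer and the band costs
-/

set_option autoImplicit false

namespace Crest.Agent.X326.Top.P2

open Filter Crest.Agent.Lib.PT FB Par

theorem muOk_cmu : MuOk Mul.cmu := ⟨1, 2, fun r p => by rw [one_mul]; exact le_rfl⟩

/-- the cost of one layer -/
noncomputable def layCost (τ : ℝ) (m : ℕ) (p : M4.Par) : ℕ :=
  p.vol * ((Nat.log m (p.d - 3) + 1) * pw τ ((p.d - 3) * (Nat.size (p.d - 3) + 2)))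

theorem specMul_of_layer {w : ℕ}
    (hlay : M4.SpecLayer (B3.LayerOk w (2 ^ 18)) (layCost (1 - 1 / (2 : ℝ) ^ 40) (2 ^ 18)))
    (hA : AnaLTC Mul.cmu) (hS : SynLTC Mul.cmu) : SpecMul :=
  specMul_of (τ := 1 - 1 / (2 : ℝ) ^ 40) (by norm_num) (by norm_num) hlay (ev_layerOk w)
    (sv_layer (by norm_num)) Mul.specConv muOk_cmu hA hS

end Crest.Agent.X326.Top.P2
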