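import Crest.Agent.X326.Top.Spec
import Crest.Agent.X326.TC.Un
import Crest.Agent.X326.TC.FinalMul

/-!
# Row 326, top level: from large numbers to all numbers, and to the statement of S0503
-/

set_option autoImplicit false

namespace Crest.Agent.X326.Top

open Crest.Agent.Lib.PT Crest.LogicCS.IntMul Crest.DTime

theorem mulStatement : MulStatement := by
  rintro T a hT ha ⟨L₀, h⟩
  obtain ⟨c, hc⟩ := hT.bridge ha
  have hL : TU (fun q : Un × ℕ × ℕ => q.2.1 < 2 ^ q.1.val ∧ q.2.2 < 2 ^ q.1.val)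
      (fun q => tb (2 * q.1.val)) (fun q => q.1.val.size) :=
    TU.size (TU.toNat (TU.val (TC.fst TC.id)))
  have hbig : TC (fun q : Un × ℕ × ℕ => (q.2.1 < 2 ^ q.1.val ∧ q.2.2 < 2 ^ q.1.val) ∧
      L₀ ≤ q.1.val.size) (fun q => tb (2 * q.1.val)) (fun q => q.2.1 * q.2.2) := by
    refine TC.comp (f := fun q : Un × ℕ × ℕ => (Un.mk q.1.val.size, q.2)) h
      ((TC.unMk (hL.restrict fun _ h => h.1)).prodMk (TC.snd TC.id)) (fun q hq => ?_)
      (Bud.of_le c 0 c fun q _ => by simpa using hc q.1.val)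
    have h1 : 2 ^ q.1.val ≤ 2 ^ 2 ^ q.1.val.size :=
      Nat.pow_le_pow_right (by norm_num) (Nat.lt_size_self _).le
    exact ⟨hq.2, hq.1.1.trans_le h1, hq.1.2.trans_le h1⟩
  have hsmall : TC (fun q : Un × ℕ × ℕ => (q.2.1 < 2 ^ q.1.val ∧ q.2.2 < 2 ^ q.1.val) ∧
      ¬ L₀ ≤ q.1.val.size) (fun q => tb (2 * q.1.val)) (fun q => q.2.1 * q.2.2) := by
    refine TC.of_ptf_bounded (by pt_prop) (5 * 2 ^ L₀ + 2) (fun q hq => ?_)
    obtain ⟨⟨n⟩, x, y⟩ := q
    obtain ⟨⟨hx, hy⟩, hn⟩ := hq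
    have h1 : n < 2 ^ L₀ := Nat.size_le.1 (not_le.1 hn).le
    have h2 : x.size ≤ n := Nat.size_le.2 hx
    have h3 : y.size ≤ n := Nat.size_le.2 hy
    simp only [sz_prod, sz_un, sz_nat]
    omega
  exact (TC.ite' (p := fun q : Un × ℕ × ℕ => L₀ ≤ q.1.val.size)
    ((TU.const L₀).decide_le hL) hbig hsmall).of_eq (fun q => ite_self _)

/-- the statement of S0503 from the multiplication statement -/
theorem final_of_specMul (h : SpecMul) :
    ∃ c : ℕ, TimeBoundComputable EqLenPair.enc (Computability.encodingList Bool).encode mulOutput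
      (fun N => c * ⌈(N : ℝ) * (Real.logb 2 N) ^ (1 - 1 / (2 : ℝ) ^ 182)⌉₊ + c) :=
  FM.timeBound_of_tc_mul (t := tb) ⟨1, fun n => by have := le_tb n; omega⟩ h

end Crest.Agent.X326.Top
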