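import Crest.Agent.X326.Top.AlgPure
import Crest.Agent.X326.TC.FinalMul
import Crest.Agent.X326.TC.Map
import Crest.Agent.X326.TC.Un

/-!
# Row 326, top level: cutting a number into digits and evaluating a digit list, in linear time
-/

set_option autoImplicit false

namespace Crest.Agent.X326.Top

open Crest.Agent.Lib.PT Crest.LogicCS.IntMul X326.Mul

/-- value of a bit list, least significant bit first -/
def lsb (l : List Bool) : ℕ := l.foldr (fun b n => Nat.bit b n) 0

@[simp] theorem lsb_nil : lsb [] = 0 := rfl

@[simp] theorem lsb_cons (b : Bool) (l : List Bool) : lsb (b :: l) = Nat.bit b (lsb l) := rfl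

theorem lsb_eq (l : List Bool) : lsb l = bitsVal l.reverse := by
  induction l with
  | nil => rfl
  | cons b l ih => rw [List.reverse_cons, FM.bitsVal_append_singleton, lsb_cons, ih]

theorem lsb_bits (n : ℕ) : lsb n.bits = n := by
  induction n using Nat.binaryRec' with
  | zero => simp
  | bit b n h ih => rw [Nat.bits_append_bit n b h, lsb_cons, ih]

theorem lsb_append (u v : List Bool) : lsb (u ++ v) = lsb u + 2 ^ u.length * lsb v := by
  induction u with
  | nil => simp
  | cons b u ih =>
    simp only [List.cons_append, lsb_cons, ih, Nat.bit_val, List.length_cons]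
    ring

theorem lsb_lt (u : List Bool) : lsb u < 2 ^ u.length := by
  rw [lsb_eq, ← List.length_reverse]
  exact FM.bitsVal_lt _

@[simp] theorem lsb_replicate_false (n : ℕ) : lsb (List.replicate n false) = 0 := by
  induction n with
  | zero => rfl
  | succ n ih => simp [List.replicate_succ, ih]

theorem lsb_drop (s : ℕ) (l : List Bool) : lsb (l.drop s) = lsb l / 2 ^ s := by
  induction s generalizing l with
  | zero => simp
  | succ s ih =>
    cases l with
    | nil => simp
    | cons b l =>
      rw [List.drop_succ_cons, ih, lsb_cons, pow_succ', ← Nat.div_div_eq_div_mul, Nat.bit_div_two]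

theorem lsb_takeD (k : ℕ) (l : List Bool) : lsb (List.takeD k l false) = lsb l % 2 ^ k := by
  induction k generalizing l with
  | zero => simp [Nat.mod_one]
  | succ k ih =>
    cases l with
    | nil =>
      have := ih []
      simp only [List.takeD_nil, lsb_replicate_false] at this ⊢
      simp
    | cons b l =>
      rw [List.takeD_succ, List.head?_cons, Option.getD_some, List.tail_cons, lsb_cons, ih,
        lsb_cons, pow_succ', Nat.mod_mul, Nat.bit_div_two, Nat.bit_val, Nat.bit_val]
      cases b <;> simp [Nat.add_mod, add_comm]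

theorem lsb_take {k : ℕ} {l : List Bool} (h : k ≤ l.length) : lsb (l.take k) = lsb l % 2 ^ k := by
  rw [← lsb_takeD, List.takeD_eq_take _ h]

theorem lsb_flatten {b : ℕ} {L : List (List Bool)} (h : ∀ u ∈ L, u.length = b) :
    lsb L.flatten = ev (2 ^ b) (L.map lsb) := by
  induction L with
  | nil => rfl
  | cons u L ih =>
    rw [List.flatten_cons, lsb_append, List.map_cons, ev_cons, h u (by simp),
      ih (fun v hv => h v (by simp [hv])), Nat.cast_id]

theorem digit_mod {b K i : ℕ} (x : ℕ) (hi : i < K) : digit b (x % 2 ^ (K * b)) i = digit b x i := by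
  unfold digit
  obtain ⟨j, rfl⟩ := Nat.exists_eq_add_of_lt hi
  rw [show (i + j + 1) * b = b * i + (b + j * b) by ring, pow_add, Nat.mod_mul_right_div_self,
    pow_add, Nat.mod_mul_right_mod]

theorem digitsL_eq {b : ℕ} (hb : 0 < b) (K x : ℕ) :
    digitsL b K x = (chunks b (List.takeD (K * b) x.bits false)).map lsb := by
  rw [chunks_eq_range (m := K) hb (by simp), List.map_map]
  refine List.map_congr_left fun i hi => ?_
  have hi' : i < K := List.mem_range.1 hi
  have h1 : b ≤ ((List.takeD (K * b) x.bits false).drop (i * b)).length := by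
    have := Nat.mul_le_mul_right b (Nat.succ_le_of_lt hi')
    rw [Nat.succ_mul] at this
    simp only [List.length_drop, List.takeD_length]
    omega
  rw [Function.comp_apply, lsb_take h1, lsb_drop, lsb_takeD, lsb_bits, ← digit_mod x hi', digit,
    mul_comm b i]

/-- the digits number `q` of all entries, packed into one number -/
def packD (b q : ℕ) (l : List ℕ) : ℕ :=
  lsb (l.map (fun c => List.takeD b (c.bits.drop (q * b)) false)).flatten

theorem packD_eq (b q : ℕ) (l : List ℕ) :
    packD b q l = ev (2 ^ b) (l.map (fun c => digit b c q)) := by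
  unfold packD
  rw [lsb_flatten (b := b) (by simp), List.map_map]
  congr 1
  refine List.map_congr_left fun c _ => ?_
  rw [Function.comp_apply, lsb_takeD, lsb_drop, lsb_bits, digit, mul_comm b q]

theorem ev_eq_packD {b : ℕ} {l : List ℕ} (h : ∀ c ∈ l, c < 2 ^ (b * 4)) :
    ev (2 ^ b) l = packD b 0 l + 2 ^ b * (packD b 1 l + 2 ^ b * (packD b 2 l +
      2 ^ b * packD b 3 l)) := by
  simp only [packD_eq]
  induction l with
  | nil => simp
  | cons c l ih =>
    have h1 := sum_digit b c 4
    rw [Nat.mod_eq_of_lt (h c (by simp))] at h1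
    simp only [Finset.sum_range_succ, Finset.range_zero, Finset.sum_empty] at h1
    simp only [List.map_cons, ev_cons, Nat.cast_id]
    rw [ih (fun d hd => h d (by simp [hd]))]
    conv_lhs => rw [← h1]
    ring

/-! ### machine level -/

variable {α : Type} [PTCode α] {P : α → Prop} {T : α → ℕ}

theorem lin_lsb : Lin lsb :=
  (TC.comp_lin FM.lin_val (TC.reverse TC.id)).of_eq (fun l => (lsb_eq l).symm)

theorem tc_lsb {l : α → List Bool} (hl : TC P T l) : TC P T (fun a => lsb (l a)) :=
  TC.comp_lin lin_lsb hl

theorem tc_bits {x : α → ℕ} (hx : TC P T x) : TC P T (fun a => (x a).bits) :=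
  TC.comp_lin (f := fun a => Lib.PT.toBits (x a)) FM.lin_bitsVal hx.toBits

/-- multiplication by `2 ^ s` -/
theorem tc_shift {s x : α → ℕ} (hs : TU P T s) (hx : TC P T x) :
    TC P T (fun a => 2 ^ s a * x a) :=
  (tc_lsb ((TC.replicate_const false hs).append (tc_bits hx))).of_eq (fun a => by
    rw [lsb_append, lsb_bits]; simp)

theorem tc_takeD {k : α → ℕ} {l : α → List Bool} (hk : TU P T k) (hl : TC P T l) :
    TC P T (fun a => List.takeD (k a) (l a) false) :=
  TC.takeD hk hl (TC.const false) (hk.bud.mono (fun x _ => by simp))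

theorem tc_digitsL {b K x : α → ℕ} (hb : TU P T b) (hK : TU P T K) (hx : TC P T x)
    (h0 : ∀ a, P a → 0 < b a) (hB : Bud P T (fun a => K a * b a)) :
    TC P T (fun a => digitsL (b a) (K a) (x a)) :=
  (TC.map lin_lsb (TC.chunks hb (tc_takeD (hK.mul hb hB) (tc_bits hx)))).congr
    (fun a ha => (digitsL_eq (h0 a ha) _ _).symm)

theorem tc_packD (q : ℕ) {b : α → ℕ} {l : α → List ℕ} (hb : TU P T b) (hl : TC P T l)
    (hB : Bud P T (fun a => (l a).length * b a)) : TC P T (fun a => packD (b a) q (l a)) := by
  have h1 : Lin (fun p : Un × ℕ => List.takeD p.1.val (p.2.bits.drop (q * p.1.val)) false) :=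
    tc_takeD (TU.val TC.id.fst) (TC.drop ((TU.val TC.id.fst).const_mul q) (tc_bits TC.id.snd))
  exact tc_lsb (TC.mapCtx_lin (f := fun (u : Un) (c : ℕ) =>
    List.takeD u.val (c.bits.drop (q * u.val)) false) h1 hb hl
    (hB.mono fun a _ => by simp)).flatten

end Crest.Agent.X326.Top
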