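import Crest.Agent.X326.Top.Par
import Crest.Agent.Lib.PT.ArithMore

/-!
# The parameters are polynomial-time computable from `L` in unary (row 326)

For `hL : PTU L`: `ptu_*` (unary value) for the parameters polynomial in `L`, `ptf_*` (binary
value) for the exponentially large ones.
-/

set_option autoImplicit false

namespace Crest.Agent.X326.Par

open Crest.Agent.Lib.PT

variable {α : Type} [PTCode α] {L : α → ℕ}

theorem ptu_of_le {f g : α → ℕ} (hf : PTF f) (hg : PTU g) (h : ∀ a, f a ≤ g a) : PTU f :=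
  (PTF.natMinUn hf hg).of_eq fun a => min_eq_left (h a)

theorem ptu_log (hL : PTU L) : PTU fun a => Nat.log 2 (L a) :=
  ptu_of_le (PTF.natLog (PTF.const 2) hL.toPTF) hL fun _ => Nat.log_le_self _ _

theorem ptu_div {f g : α → ℕ} (hf : PTU f) (hg : PTF g) : PTU fun a => f a / g a :=
  ptu_of_le (PTF.natDiv hf.toPTF hg) hf fun _ => Nat.div_le_self _ _

theorem ptu_jj (hL : PTU L) : PTU fun a => jj (L a) := ptu_div (ptu_log hL) (PTF.const 576)

theorem ff_le (L : ℕ) : ff L ≤ L + 1 := by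
  rcases Nat.eq_zero_or_pos L with rfl | hL
  · simp [ff, jj]
  rw [ff_eq_two_pow]
  refine le_trans (Nat.pow_le_pow_right (by norm_num) ?_)
    ((Nat.pow_log_le_self 2 hL.ne').trans (Nat.le_succ L))
  unfold jj
  omega

theorem ptu_ff (hL : PTU L) : PTU fun a => ff (L a) :=
  ptu_of_le (PTF.natPow (PTF.const (2 ^ 18)) (ptu_jj hL)) hL.succ fun _ => ff_le _

theorem ptu_dd (hL : PTU L) : PTU fun a => dd (L a) := (ptu_ff hL).add (PTU.const 3)
theorem ptu_ee (hL : PTU L) : PTU fun a => ee (L a) := (ptu_ff hL).add (PTU.const 1)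
theorem ptu_Lp (hL : PTU L) : PTU fun a => Lp (L a) := (hL.add (PTU.const 3)).sub (ptu_log hL)
theorem ptu_kk (hL : PTU L) : PTU fun a => kk (L a) := ptu_div (ptu_Lp hL) (ptu_dd hL).succ.toPTF
theorem ptu_rho (hL : PTU L) : PTU fun a => rho (L a) :=
  (ptu_Lp hL).sub ((ptu_dd hL).mul (ptu_kk hL))
theorem ptu_nu (hL : PTU L) : PTU fun a => nu (L a) := (PTU.const 4).mul (ptu_ff hL)
theorem ptu_pp (hL : PTU L) : PTU fun a => pp (L a) := (PTU.const 32).mul hL
theorem ptu_PP (hL : PTU L) : PTU fun a => PP (L a) := (PTU.const 128).mul hL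
theorem ptu_nn (hL : PTU L) : PTU fun a => nn (L a) :=
  ((PTU.const 4).mul ((ptu_nu hL).pow 2)).mul (ptu_pp hL)
theorem ptu_beta (hL : PTU L) : PTU fun a => beta (L a) :=
  PTF.natSizeUn ((ptu_nu hL).mul (((PTU.const 8).mul (ptu_nn hL)).add (PTU.const 5))).toPTF

theorem BB_le (L : ℕ) : BB L ≤ 2 * (nu L * (8 * nn L + 5)) := by
  have h : 0 < nu L * (8 * nn L + 5) := Nat.mul_pos (nu_pos L) (by omega)
  have h0 := Nat.size_pos.2 h
  have h1 : 2 ^ (Nat.size (nu L * (8 * nn L + 5)) - 1) ≤ nu L * (8 * nn L + 5) :=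
    Nat.lt_size.1 (by omega)
  have h3 : BB L = 2 * 2 ^ (Nat.size (nu L * (8 * nn L + 5)) - 1) := by
    unfold BB beta
    rw [← pow_succ']; congr 1; omega
  omega

theorem ptu_BB (hL : PTU L) : PTU fun a => BB (L a) :=
  ptu_of_le (PTF.natTwoPow (ptu_beta hL))
    ((PTU.const 2).mul ((ptu_nu hL).mul (((PTU.const 8).mul (ptu_nn hL)).add (PTU.const 5))))
    fun _ => BB_le _

theorem ptf_tt (hL : PTU L) : PTF fun a => tt (L a) := PTF.natTwoPow (ptu_kk hL)
theorem ptf_rr (hL : PTU L) : PTF fun a => rr (L a) := PTF.natTwoPow (ptu_rho hL)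
theorem ptf_gam (hL : PTU L) : PTF fun a => gam (L a) := PTF.natDiv (ptf_tt hL) (ptu_nu hL).toPTF
theorem ptf_QQ (hL : PTU L) : PTF fun a => QQ (L a) :=
  PTF.natMul (ptf_gam hL) ((ptu_nu hL).sub (PTU.const 1)).toPTF
theorem ptf_dl (hL : PTU L) : PTF fun a => dl (L a) :=
  PTF.natMul ((PTU.const 2).mul (ptu_nn hL)).succ.toPTF (ptf_tt hL)
theorem ptf_NN (hL : PTU L) : PTF fun a => NN (L a) :=
  PTF.natMul (ptf_tt hL) (PTF.natPow (ptf_QQ hL) (ptu_ee hL).succ)

end Crest.Agent.X326.Par
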