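import Crest.Agent.X326.Top.Spec
import Crest.Agent.X326.Top.Bits
import Crest.Agent.X326.Top.ParPT
import Crest.Agent.X326.TC.NatLin

/-!
# Row 326, top level: multiplication of large numbers from the exact cyclic convolution
-/

set_option autoImplicit false

namespace Crest.Agent.X326.Top

open Crest.Agent.Lib.PT X326.Mul FB Par Filter

section tc

variable {α : Type} [PTCode α] {P : α → Prop} {T : α → ℕ}

theorem lin_natCast : Lin (fun c : ℕ => (c : ℤ)) :=
  ((TC.const false).prodMk TC.id).recode (fun c _ => by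
    rw [enc_int, decide_eq_false (by omega : ¬ ((c : ℤ) < 0)), Int.natAbs_natCast])

theorem lin_toNat : Lin Int.toNat := by
  have h : Lin (fun z : ℤ => (decide (z < 0), z.natAbs)) := Lin.of_enc_eq (fun _ => rfl)
  refine (TC.cond h.fst (TC.const 0) h.snd).of_eq (fun z => ?_)
  by_cases hz : z < 0
  · simp [hz, Int.toNat_of_nonpos hz.le]
  · simp only [hz, decide_false, cond_false]
    omega

theorem tc_ev (hadd : Lin (fun p : ℕ × ℕ => p.1 + p.2)) {b : α → ℕ} {l : α → List ℕ}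
    (hb : TU P T b) (hl : TC P T l) (h : ∀ a, P a → ∀ c ∈ l a, c < 2 ^ (b a * 4))
    (hB : Bud P T (fun a => (l a).length * b a)) : TC P T (fun a => ev (2 ^ b a) (l a)) := by
  have add : ∀ {f g : α → ℕ}, TC P T f → TC P T g → TC P T (fun a => f a + g a) :=
    fun hf hg => TC.comp₂ (g := fun x y : ℕ => x + y) hadd hf hg
  exact (add (tc_packD 0 hb hl hB) (tc_shift hb (add (tc_packD 1 hb hl hB) (tc_shift hb
    (add (tc_packD 2 hb hl hB) (tc_shift hb (tc_packD 3 hb hl hB))))))).congr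
    (fun a ha => (ev_eq_packD (h a ha)).symm)

theorem tc_digL {b h N x : α → ℕ} (hb : TU P T b) (hh : TU P T h) (hN : TU P T N) (hx : TC P T x)
    (h0 : ∀ a, P a → 0 < b a ∧ 0 < h a) (hB : Bud P T (fun a => N a * h a * b a)) :
    TC P T (fun a => digL (b a) (h a) (N a) (x a)) := by
  have hNh : Bud P T (fun a => N a * h a) :=
    hB.mono fun a ha => Nat.le_mul_of_pos_right _ (h0 a ha).1
  have h1 := TC.chunks hh (tc_digitsL hb (hN.mul hh hNh) hx (fun a ha => (h0 a ha).1) hB)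
  have h2 : Lin (fun p : Un × List ℕ => p.2 ++ List.replicate p.1.val 0) :=
    TC.append TC.id.snd (TC.replicate_const 0 (TU.val TC.id.fst))
  refine TC.map lin_natCast (TC.mapCtx_lin (f := fun (u : Un) (c : List ℕ) =>
    c ++ List.replicate u.val 0) h2 hh h1 (hNh.mono fun a ha => ?_)).flatten
  rw [length_chunks (m := N a) (h0 a ha).2 (by simp [digitsL])]
  simp

theorem tc_evalL (hadd : Lin (fun p : ℕ × ℕ => p.1 + p.2)) {b h : α → ℕ} {c : α → List ℤ}
    (hb : TU P T b) (hh : TU P T h) (hc : TC P T c) (N : α → ℕ)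
    (h0 : ∀ a, P a → 0 < h a ∧ 0 < N a ∧ (c a).length = N a * (2 * h a) ∧
      ∀ z ∈ c a, z < 2 ^ (b a * 4))
    (hB : Bud P T (fun a => N a * h a * (b a + 1))) :
    TC P T (fun a => evalL (b a) (h a) (c a)) := by
  have hc' : TC P T (fun a => (c a).map Int.toNat) := TC.map lin_toNat hc
  have hch := TC.chunks (hh.const_mul 2) hc'
  have hC : Bud P T (fun a => (chunks (2 * h a) ((c a).map Int.toNat)).length *
      sz (Un.mk (h a))) := hB.mono fun a ha => by
    obtain ⟨h1, -, h2, -⟩ := h0 a ha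
    rw [length_chunks (m := N a) (by omega) (by simpa using h2)]
    simp only [sz_un]
    exact Nat.le_mul_of_pos_right _ (Nat.succ_pos _)
  have hlo : TC P T (fun a => loL (h a) ((c a).map Int.toNat)) :=
    (TC.mapCtx_lin (f := fun (u : Un) (v : List ℕ) => v.take u.val)
      (TC.take (TU.val TC.id.fst) TC.id.snd) hh hch hC).flatten
  have hhi : TC P T (fun a => hiL (h a) ((c a).map Int.toNat)) :=
    (TC.mapCtx_lin (f := fun (u : Un) (v : List ℕ) => v.drop u.val)
      (TC.drop (TU.val TC.id.fst) TC.id.snd) hh hch hC).flatten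
  have hlt : ∀ a, P a → ∀ d ∈ (c a).map Int.toNat, d < 2 ^ (b a * 4) := by
    intro a ha d hd
    obtain ⟨z, hz, rfl⟩ := List.mem_map.1 hd
    have h1 := (h0 a ha).2.2.2 z hz
    have h2 : 0 < 2 ^ (b a * 4) := by positivity
    have h3 : z < ((2 ^ (b a * 4) : ℕ) : ℤ) := by exact_mod_cast h1
    omega
  have htab : ∀ a, P a → (c a).map Int.toNat =
      (List.range (N a * (2 * h a))).map (fun i => ((c a).map Int.toNat).getD i 0) := by
    intro a ha
    rw [← (h0 a ha).2.2.1, ← List.length_map (f := Int.toNat), map_getD_range]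
  have hB' : Bud P T (fun a => N a * h a * b a) :=
    hB.mono fun a _ => Nat.mul_le_mul_left _ (Nat.le_succ _)
  have e1 := tc_ev hadd hb hlo (fun a ha d hd => hlt a ha d (mem_of_mem_loL hd))
    (hB'.mono fun a ha => by rw [htab a ha, loL_eq (h0 a ha).1]; simp)
  have e2 := tc_ev hadd hb hhi (fun a ha d hd => hlt a ha d (mem_of_mem_hiL hd))
    (hB'.mono fun a ha => by rw [htab a ha, hiL_eq (h0 a ha).1]; simp)
  have hbh : Bud P T (fun a => b a * h a) := hB'.mono fun a ha => by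
    have := (h0 a ha).2.1
    calc b a * h a = 1 * h a * b a := by ring
      _ ≤ _ := Nat.mul_le_mul_right _ (Nat.mul_le_mul_right _ this)
  exact TC.comp₂ (g := fun x y : ℕ => x + y) hadd e1 (tc_shift (hb.mul hh hbh) e2)

end tc

/-- the side conditions used by the assembly -/
structure AlgOk (L : ℕ) : Prop where
  pos : 0 < L
  rr_eq : 2 * (rr L / 2) = rr L
  cap : 2 ^ L ≤ L * (NN L / 2 * (rr L / 2))
  le : NN L * rr L ≤ 2 ^ L
  vol : NN L * rr L * L ≤ 16 * 2 ^ L

theorem ev_algOk : ∀ᶠ L in atTop, AlgOk L := by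
  filter_upwards [eventually_gt_atTop 0, ev_two_dvd_rr, ev_capacity, ev_NN_mul_rr_le]
    with L h1 h2 h3 h4
  refine ⟨h1, Nat.mul_div_cancel' h2, by rwa [mul_comm (NN L / 2), ← mul_assoc], h4, ?_⟩
  refine le_trans ?_ (two_pow_Lp_mul_le L)
  rw [← tt_pow_mul_rr]
  exact Nat.mul_le_mul_right _ (Nat.mul_le_mul_right _ (NN_le L))

theorem AlgOk.half_pos {L : ℕ} (h : AlgOk L) : 0 < rr L / 2 := by
  have := rr_pos L
  have := h.rr_eq
  omega

theorem AlgOk.NN_pos {L : ℕ} (h : AlgOk L) : 0 < NN L := by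
  rcases Nat.eq_zero_or_pos (NN L) with h0 | h0
  · have h1 := h.cap
    have h2 : 0 < 2 ^ L := by positivity
    rw [h0] at h1
    simp at h1
  · exact h0

theorem big_of_add (hadd : Lin (fun p : ℕ × ℕ => p.1 + p.2)) : BigStatement := by
  rintro T ⟨F, L₀, hF, hspec⟩
  obtain ⟨L₁, hL₁⟩ := eventually_atTop.1 ev_algOk
  refine ⟨max L₀ L₁, ?_⟩
  set D : Un × ℕ × ℕ → Prop := fun q => max L₀ L₁ ≤ q.1.val ∧ q.2.1 < 2 ^ 2 ^ q.1.val ∧
    q.2.2 < 2 ^ 2 ^ q.1.val with hD
  set C : Un × ℕ × ℕ → ℕ := fun q => T q.1.val + 2 ^ q.1.val with hC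
  have ok : ∀ q, D q → AlgOk q.1.val := fun q hq => hL₁ _ (le_trans (le_max_right _ _) hq.1)
  have hpow : Bud D C (fun q => 2 ^ q.1.val) := Bud.self.mono fun q _ => Nat.le_add_left _ _
  have hL : TU D C (fun q => q.1.val) := TU.val TC.id.fst
  have hsm : Small D C (fun q => sz q.1) := (Small.of_two_pow hpow).mono fun q _ => by simp
  have hU : PTU (fun u : Un => u.val) := PTU.val PTF.id
  have hvol : Bud D C (fun q => NN q.1.val * rr q.1.val * q.1.val) :=
    (hpow.const_mul 16).mono fun q hq => (ok q hq).vol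
  have hN : TU D C (fun q => NN q.1.val) :=
    TU.ofNat (TC.ptf (g := fun u : Un => NN u.val) (ptf_NN hU) TC.id.fst hsm)
      (hpow.mono fun q hq => (Nat.le_mul_of_pos_right _ (rr_pos _)).trans (ok q hq).le)
  have hr : TU D C (fun q => rr q.1.val) :=
    TU.ofNat (TC.ptf (g := fun u : Un => rr u.val) (ptf_rr hU) TC.id.fst hsm)
      (hpow.mono fun q hq => (Nat.le_mul_of_pos_left _ (ok q hq).NN_pos).trans (ok q hq).le)
  have hh : TU D C (fun q => rr q.1.val / 2) := hr.div (TU.const 2)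
  have hB : Bud D C (fun q => NN q.1.val * (rr q.1.val / 2) * q.1.val) :=
    hvol.mono fun q _ => Nat.mul_le_mul_right _ (Nat.mul_le_mul_left _ (Nat.div_le_self _ _))
  have hdig : ∀ {x : Un × ℕ × ℕ → ℕ}, TC D C x →
      TC D C (fun q => digL q.1.val (rr q.1.val / 2) (NN q.1.val) (x q)) :=
    fun hx => tc_digL hL hh hN hx (fun q hq => ⟨(ok q hq).pos, (ok q hq).half_pos⟩) hB
  have edig : ∀ L x, AlgOk L → digL L (rr L / 2) (NN L) x =
      (List.range (NN L * rr L)).map (dig L (rr L / 2) x) := by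
    intro L x h
    rw [digL_eq h.half_pos, h.rr_eq]
  have hDig : ∀ L x, AlgOk L → DigL L (digL L (rr L / 2) (NN L) x) := by
    intro L x h
    rw [edig L x h]
    refine ⟨by simp, fun z hz => ?_⟩
    obtain ⟨i, -, rfl⟩ := List.mem_map.1 hz
    exact ⟨dig_nonneg .., dig_lt ..⟩
  have hcv : TC D C (fun q => F (q.1, digL q.1.val (rr q.1.val / 2) (NN q.1.val) q.2.1,
      digL q.1.val (rr q.1.val / 2) (NN q.1.val) q.2.2)) :=
    TC.comp hF (TC.id.fst.prodMk ((hdig TC.id.snd.fst).prodMk (hdig TC.id.snd.snd)))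
      (fun q hq => ⟨le_trans (le_max_left _ _) hq.1, hDig _ _ (ok q hq), hDig _ _ (ok q hq)⟩)
      (Bud.self.mono fun q _ => Nat.le_add_right _ _)
  have ecv : ∀ q, D q → F (q.1, digL q.1.val (rr q.1.val / 2) (NN q.1.val) q.2.1,
      digL q.1.val (rr q.1.val / 2) (NN q.1.val) q.2.2) =
      (List.range (NN q.1.val * (2 * (rr q.1.val / 2)))).map
        (cyc (NN q.1.val) (2 * (rr q.1.val / 2)) (nega (2 * (rr q.1.val / 2)))
          (dig q.1.val (rr q.1.val / 2) q.2.1) (dig q.1.val (rr q.1.val / 2) q.2.2)) := by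
    intro q hq
    rw [edig _ _ (ok q hq), edig _ _ (ok q hq), (ok q hq).rr_eq]
    exact hspec q.1.val _ _ (le_trans (le_max_left _ _) hq.1)
      (fun _ => ⟨dig_nonneg .., dig_lt ..⟩) (fun _ => ⟨dig_nonneg .., dig_lt ..⟩)
  refine (tc_evalL hadd hL hh hcv (fun q => NN q.1.val) (fun q hq => ?_) ?_).congr
    (fun q hq => ?_)
  · have h := ok q hq
    refine ⟨h.half_pos, h.NN_pos, by rw [ecv q hq]; simp, fun z hz => ?_⟩
    rw [ecv q hq] at hz
    obtain ⟨i, -, rfl⟩ := List.mem_map.1 hz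
    refine (cyc_dig_le h.half_pos _ _ _ _ _).trans_lt ?_
    rw [h.rr_eq]
    have h1 : NN q.1.val * rr q.1.val * 2 ^ (2 * q.1.val) < 2 ^ (q.1.val * 4) := by
      calc _ ≤ 2 ^ q.1.val * 2 ^ (2 * q.1.val) := Nat.mul_le_mul_right _ h.le
        _ = 2 ^ (3 * q.1.val) := by rw [← pow_add]; congr 1; ring
        _ < _ := Nat.pow_lt_pow_right (by norm_num) (by have := h.pos; omega)
    exact_mod_cast h1
  · refine (hB.const_mul 2).mono fun q hq => ?_
    have := (ok q hq).pos
    calc _ ≤ NN q.1.val * (rr q.1.val / 2) * (2 * q.1.val) :=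
          Nat.mul_le_mul_left _ (by omega)
      _ = _ := by ring
  · have h := ok q hq
    have hle : 2 ^ 2 ^ q.1.val ≤ 2 ^ (q.1.val * (NN q.1.val / 2 * (rr q.1.val / 2))) :=
      Nat.pow_le_pow_right (by norm_num) h.cap
    rw [ecv q hq]
    exact evalL_cyc h.half_pos (Nat.mul_div_le _ 2) (hq.2.1.trans_le hle) (hq.2.2.trans_le hle)

theorem bigStatement : BigStatement := big_of_add (TC.natAdd TC.id.fst TC.id.snd)

end Crest.Agent.X326.Top
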