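import Crest.Agent.X326.Top.Digits
import Crest.Agent.X326.TC.MergeSpec
import Crest.Agent.X326.Mul.Defs

/-!
# Row 326, top level: list versions of the digit array and of the final evaluation
-/

set_option autoImplicit false

namespace Crest.Agent.X326.Top

open Finset FB X326.Mul

/-- the first `K` digits in base `2 ^ b` -/
def digitsL (b K x : ℕ) : List ℕ := (List.range K).map (digit b x)

/-- the digit array as a flat list: `N` records, `h` digits and `h` zeros each -/
def digL (b h N x : ℕ) : List ℤ :=
  (((chunks h (digitsL b (N * h) x)).map (fun c => c ++ List.replicate h 0)).flatten).map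
    (fun c : ℕ => (c : ℤ))

/-- the low halves of all records -/
def loL (h : ℕ) (c : List ℕ) : List ℕ := ((chunks (2 * h) c).map (fun u => u.take h)).flatten

/-- the high halves of all records -/
def hiL (h : ℕ) (c : List ℕ) : List ℕ := ((chunks (2 * h) c).map (fun u => u.drop h)).flatten

/-- the final evaluation -/
def evalL (b h : ℕ) (c : List ℤ) : ℕ :=
  ev (2 ^ b) (loL h (c.map Int.toNat)) + 2 ^ (b * h) * ev (2 ^ b) (hiL h (c.map Int.toNat))

theorem map_range_append_replicate {α : Type} (h : ℕ) (f : ℕ → α) (d : α) :
    (List.range h).map f ++ List.replicate h d =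
      (List.range (2 * h)).map (fun u => if u < h then f u else d) := by
  apply List.ext_getElem
  · simp; omega
  · intro i h1 h2
    by_cases hi : i < h
    · rw [List.getElem_append_left (by simpa using hi)]
      simp [hi]
    · rw [List.getElem_append_right (by simpa using hi)]
      simp [hi]

theorem digL_eq {h : ℕ} (hh : 0 < h) (b N x : ℕ) :
    digL b h N x = (List.range (N * (2 * h))).map (dig b h x) := by
  unfold digL digitsL
  rw [chunks_map_range hh, List.map_map]
  have : (fun c => c ++ List.replicate h 0) ∘
      (fun i => (List.range h).map (fun j => digit b x (i * h + j))) =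
      fun i => (List.range (2 * h)).map (fun u => if u < h then digit b x (i * h + u) else 0) := by
    funext i
    exact map_range_append_replicate h _ 0
  rw [this, flatten_map_range, List.map_map]
  refine List.map_congr_left fun z _ => ?_
  simp only [Function.comp_apply, dig, pos]
  split_ifs <;> simp

theorem loL_eq {h : ℕ} (hh : 0 < h) (N : ℕ) (f : ℕ → ℕ) :
    loL h ((List.range (N * (2 * h))).map f) =
      (List.range (N * h)).map (fun i => f (i / h * (2 * h) + i % h)) := by
  unfold loL
  rw [chunks_map_range (by omega), List.map_map,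
    ← flatten_map_range N h (fun j u => f (j * (2 * h) + u))]
  congr 1
  refine List.map_congr_left fun j _ => ?_
  have := drop_take_map_range (fun u => f (j * (2 * h) + u)) (N := 2 * h) (s := 0) (n := h)
    (by omega)
  simpa using this

theorem hiL_eq {h : ℕ} (hh : 0 < h) (N : ℕ) (f : ℕ → ℕ) :
    hiL h ((List.range (N * (2 * h))).map f) =
      (List.range (N * h)).map (fun i => f (i / h * (2 * h) + (h + i % h))) := by
  unfold hiL
  rw [chunks_map_range (by omega), List.map_map,
    ← flatten_map_range N h (fun j u => f (j * (2 * h) + (h + u)))]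
  congr 1
  refine List.map_congr_left fun j _ => ?_
  have := drop_take_map_range (fun u => f (j * (2 * h) + u)) (N := 2 * h) (s := h) (n := h)
    (by omega)
  rw [List.take_of_length_le (by simp; omega)] at this
  simpa using this

theorem ev_map_range {A : Type} [CommSemiring A] (z : A) (K : ℕ) (f : ℕ → ℕ) :
    ev z ((List.range K).map f) = ∑ i ∈ range K, (f i : A) * z ^ i := by
  induction K with
  | zero => simp
  | succ K ih =>
    rw [List.range_succ, List.map_append, ev_append, ih, sum_range_succ]
    simp [mul_comm]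

theorem div_mod_aux {h j u : ℕ} (hu : u < h) : (j * h + u) / h = j ∧ (j * h + u) % h = u := by
  have h0 : 0 < h := by omega
  rw [mul_comm j, Nat.mul_add_div h0, Nat.mul_add_mod, Nat.div_eq_of_lt hu, Nat.mod_eq_of_lt hu]
  simp

theorem evalL_eq {h : ℕ} (hh : 0 < h) (b N : ℕ) {c : Arr} (hc : ∀ z, 0 ≤ c z) :
    (evalL b h ((List.range (N * (2 * h))).map c) : ℤ) = evalA b h N c := by
  unfold evalL
  rw [List.map_map, loL_eq hh, hiL_eq hh, ev_map_range, ev_map_range, evalA_eq, sum_range_mul,
    sum_range_mul, mul_sum, ← sum_add_distrib]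
  push_cast
  refine sum_congr rfl fun j _ => ?_
  unfold recVal
  rw [two_mul h, sum_range_add, add_mul, sum_mul, sum_mul, mul_sum]
  congr 1
  · refine sum_congr rfl fun u hu => ?_
    obtain ⟨e1, e2⟩ := div_mod_aux (j := j) (mem_range.1 hu)
    rw [e1, e2, Function.comp_apply, Int.toNat_of_nonneg (hc _)]
    ring
  · refine sum_congr rfl fun u hu => ?_
    obtain ⟨e1, e2⟩ := div_mod_aux (j := j) (mem_range.1 hu)
    rw [e1, e2, Function.comp_apply, Int.toNat_of_nonneg (hc _)]
    ring

/-- **digits, convolution, evaluation: the product** -/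
theorem evalL_cyc {b h N J x y : ℕ} (hh : 0 < h) (hJ : 2 * J ≤ N) (hx : x < 2 ^ (b * (J * h)))
    (hy : y < 2 ^ (b * (J * h))) :
    evalL b h ((List.range (N * (2 * h))).map
      (cyc N (2 * h) (nega (2 * h)) (dig b h x) (dig b h y))) = x * y := by
  have := evalL_eq hh b N (cyc_dig_nonneg hh b N x y)
  rw [evalA_cyc hJ hx hy] at this
  exact_mod_cast this

theorem mem_of_mem_loL {h : ℕ} {c : List ℕ} {a : ℕ} (ha : a ∈ loL h c) : a ∈ c := by
  obtain ⟨u, hu, hau⟩ := List.mem_flatten.1 ha
  obtain ⟨v, hv, rfl⟩ := List.mem_map.1 hu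
  exact mem_of_mem_chunks hv (List.mem_of_mem_take hau)

theorem mem_of_mem_hiL {h : ℕ} {c : List ℕ} {a : ℕ} (ha : a ∈ hiL h c) : a ∈ c := by
  obtain ⟨u, hu, hau⟩ := List.mem_flatten.1 ha
  obtain ⟨v, hv, rfl⟩ := List.mem_map.1 hu
  exact mem_of_mem_chunks hv (List.mem_of_mem_drop hau)

end Crest.Agent.X326.Top
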