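import Crest.Agent.X326.Top.LB

/-!
# Bridge from soft-O cost bounds to the time bound of S0503 (row 326)

`tb N = ⌈N * (log₂ N) ^ (1 - 2^(-182))⌉` is the function in the statement.  A cost function `T`
of the operand length `n` with `T n ≤ n * F (size n)` eventually, `SO F a`, `a < 1 - 2^(-182)`, is
bounded by `c * tb (2 n) + c` for all `n`.
-/

set_option autoImplicit false

namespace Crest.Agent.X326

open Filter

/-- the time bound of the statement, without the constant -/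
noncomputable def tb (N : ℕ) : ℕ := ⌈(N : ℝ) * (Real.logb 2 N) ^ (1 - 1 / (2 : ℝ) ^ 182)⌉₊

theorem tendsto_size_atTop : Tendsto Nat.size atTop atTop := by
  refine tendsto_atTop.2 fun b => ?_
  filter_upwards [eventually_ge_atTop (2 ^ b)] with n hn
  exact (Nat.lt_size.2 hn).le

theorem size_le_logb {n : ℕ} (hn : 0 < n) : (Nat.size n : ℝ) ≤ Real.logb 2 ((2 * n : ℕ) : ℝ) := by
  have h0 := Nat.size_pos.2 hn
  have h1 : 2 ^ (Nat.size n - 1) ≤ n := Nat.lt_size.1 (by omega)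
  have h2 : 2 ^ Nat.size n ≤ 2 * n := by
    have : 2 ^ Nat.size n = 2 * 2 ^ (Nat.size n - 1) := by
      rw [← pow_succ']; congr 1; omega
    omega
  rw [Real.le_logb_iff_rpow_le (by norm_num) (by positivity), Real.rpow_natCast]
  exact_mod_cast h2

theorem mul_size_rpow_le_tb {n : ℕ} (hn : 0 < n) :
    (n : ℝ) * (Nat.size n : ℝ) ^ (1 - 1 / (2 : ℝ) ^ 182) ≤ tb (2 * n) := by
  refine le_trans ?_ (Nat.le_ceil _)
  have h1 : (Nat.size n : ℝ) ^ (1 - 1 / (2 : ℝ) ^ 182) ≤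
      (Real.logb 2 ((2 * n : ℕ) : ℝ)) ^ (1 - 1 / (2 : ℝ) ^ 182) :=
    Real.rpow_le_rpow (Nat.cast_nonneg _) (size_le_logb hn) (by norm_num)
  refine mul_le_mul ?_ h1 (by positivity) (Nat.cast_nonneg _)
  push_cast
  linarith [Nat.cast_nonneg (α := ℝ) n]

theorem le_tb (n : ℕ) : n ≤ tb (2 * n) := by
  rcases Nat.eq_zero_or_pos n with rfl | hn
  · simp
  have h1 := mul_size_rpow_le_tb hn
  have h2 : (1 : ℝ) ≤ (Nat.size n : ℝ) ^ (1 - 1 / (2 : ℝ) ^ 182) :=
    Real.one_le_rpow (by exact_mod_cast Nat.size_pos.2 hn) (by norm_num)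
  have h3 : (n : ℝ) ≤ tb (2 * n) := le_trans (le_mul_of_one_le_right (Nat.cast_nonneg _) h2) h1
  exact_mod_cast h3

/-- an eventual bound `T n ≤ c * g n` becomes a global bound `T n ≤ c * g n + c` -/
theorem global_of_eventually {T g : ℕ → ℕ} {c : ℕ} (h : ∀ᶠ n in atTop, T n ≤ c * g n) :
    ∃ c' : ℕ, ∀ n, T n ≤ c' * g n + c' := by
  obtain ⟨n0, h⟩ := eventually_atTop.1 h
  refine ⟨c + ∑ i ∈ Finset.range n0, T i, fun n => ?_⟩
  rcases Nat.lt_or_ge n n0 with hn | hn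
  · have := Finset.single_le_sum (f := T) (fun i _ => Nat.zero_le _) (Finset.mem_range.2 hn)
    omega
  · have := h n hn
    rw [add_mul]; omega

theorem SO.eventually_le_tb {F : ℕ → ℕ} {a : ℝ} (hF : SO F a) (ha : a < 1 - 1 / (2 : ℝ) ^ 182) :
    ∃ c : ℕ, ∀ᶠ n in atTop, n * F (Nat.size n) ≤ c * tb (2 * n) := by
  obtain ⟨C, hC⟩ := hF.bound ha
  refine ⟨C, ?_⟩
  filter_upwards [tendsto_size_atTop.eventually hC, eventually_gt_atTop 0] with n h1 h2
  have h3 := mul_size_rpow_le_tb h2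
  have h4 : ((n * F (Nat.size n) : ℕ) : ℝ) ≤ (C * tb (2 * n) : ℕ) := by
    push_cast
    calc (n : ℝ) * F (Nat.size n) ≤ n * (C * (Nat.size n : ℝ) ^ (1 - 1 / (2 : ℝ) ^ 182)) :=
          mul_le_mul_of_nonneg_left h1 (Nat.cast_nonneg _)
      _ = C * (n * (Nat.size n : ℝ) ^ (1 - 1 / (2 : ℝ) ^ 182)) := by ring
      _ ≤ _ := mul_le_mul_of_nonneg_left h3 (Nat.cast_nonneg _)
  exact_mod_cast h4

/-- **Bridge.** A cost `T n ≤ n * F (size n)` (for large `n`) with `SO F a`, `a < 1 - 2^(-182)`,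
is within the bound of the statement for every `n`. -/
theorem bridge {T F : ℕ → ℕ} {a : ℝ} (hF : SO F a) (ha : a < 1 - 1 / (2 : ℝ) ^ 182)
    (hT : ∀ᶠ n in atTop, T n ≤ n * F (Nat.size n)) :
    ∃ c : ℕ, ∀ n, T n ≤ c * tb (2 * n) + c := by
  obtain ⟨c, hc⟩ := hF.eventually_le_tb ha
  refine global_of_eventually (c := c) ?_
  filter_upwards [hT, hc] with n h1 h2
  exact h1.trans h2

/-- the same for a cost given as a function of `L = size n` with the volume `2 ^ L` -/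
theorem bridge_two_pow {T F : ℕ → ℕ} {a : ℝ} (hF : SO F a) (ha : a < 1 - 1 / (2 : ℝ) ^ 182)
    (hT : ∀ᶠ L in atTop, T L ≤ 2 ^ L * F L) :
    ∃ c : ℕ, ∀ n, T (Nat.size n) ≤ c * tb (2 * n) + c := by
  refine bridge (hF.const_mul 2) ha ?_
  filter_upwards [tendsto_size_atTop.eventually hT, eventually_gt_atTop 0] with n h1 hn
  have h0 := Nat.size_pos.2 hn
  have h2 : 2 ^ (Nat.size n - 1) ≤ n := Nat.lt_size.1 (by omega)
  have h3 : 2 ^ Nat.size n = 2 * 2 ^ (Nat.size n - 1) := by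
    rw [← pow_succ']; congr 1; omega
  calc T (Nat.size n) ≤ 2 ^ Nat.size n * F (Nat.size n) := h1
    _ ≤ (2 * n) * F (Nat.size n) := Nat.mul_le_mul_right _ (by omega)
    _ = _ := by ring

/-- `SV T a`: the cost `T L` is the volume `2 ^ L` times a factor of exponent `a`. -/
def SV (T : ℕ → ℕ) (a : ℝ) : Prop := ∃ F : ℕ → ℕ, SO F a ∧ ∀ᶠ L in atTop, T L ≤ 2 ^ L * F L

namespace SV

variable {T S F : ℕ → ℕ} {a b : ℝ}

theorem of_le (h : ∀ᶠ L in atTop, T L ≤ S L) (hS : SV S a) : SV T a := by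
  obtain ⟨F, hF, h'⟩ := hS
  exact ⟨F, hF, by filter_upwards [h, h'] with L h1 h2 using h1.trans h2⟩

theorem of_le' (h : ∀ L, T L ≤ S L) (hS : SV S a) : SV T a := of_le (Eventually.of_forall h) hS

theorem mono (hT : SV T a) (hab : a ≤ b) : SV T b := by
  obtain ⟨F, hF, h⟩ := hT
  exact ⟨F, hF.mono hab, h⟩

theorem two_pow : SV (fun L => 2 ^ L) 0 :=
  ⟨fun _ => 1, SO.const 1, Eventually.of_forall fun L => by simp⟩

theorem of_le_two_pow (h : ∀ᶠ L in atTop, T L ≤ 2 ^ L) : SV T 0 := of_le h two_pow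

/-- anything polynomial in `L` -/
theorem of_so (hF : SO F a) : SV F 0 :=
  of_le_two_pow (hF.eventually_le_two_pow_lb LB.id one_pos)

theorem const (c : ℕ) : SV (fun _ => c) 0 := of_so (SO.const c)

theorem add (hT : SV T a) (hS : SV S a) : SV (fun L => T L + S L) a := by
  obtain ⟨F, hF, h⟩ := hT
  obtain ⟨G, hG, h'⟩ := hS
  refine ⟨_, hF.add hG, ?_⟩
  filter_upwards [h, h'] with L h1 h2
  rw [mul_add]; omega

theorem mul_so (hT : SV T a) (hF : SO F b) : SV (fun L => T L * F L) (a + b) := by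
  obtain ⟨G, hG, h⟩ := hT
  refine ⟨_, hG.mul hF, ?_⟩
  filter_upwards [h] with L h1
  rw [← mul_assoc]
  exact Nat.mul_le_mul_right _ h1

theorem so_mul (hF : SO F b) (hT : SV T a) : SV (fun L => F L * T L) (b + a) :=
  (of_le' (fun L => by rw [mul_comm]) (hT.mul_so hF)).mono (by rw [add_comm])

theorem const_mul (c : ℕ) (hT : SV T a) : SV (fun L => c * T L) a :=
  (so_mul (SO.const c) hT).mono (by simp)

theorem mul_const (hT : SV T a) (c : ℕ) : SV (fun L => T L * c) a :=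
  (hT.mul_so (SO.const c)).mono (by simp)

theorem add_so (hT : SV T a) (ha : 0 ≤ a) (hF : SO F b) : SV (fun L => T L + F L) a :=
  hT.add ((of_so hF).mono ha)

theorem add_const (hT : SV T a) (ha : 0 ≤ a) (c : ℕ) : SV (fun L => T L + c) a :=
  hT.add_so ha (SO.const c)

/-- the bit length of such a cost is `O(L)` -/
theorem size (hT : SV T a) : SO (fun L => Nat.size (T L)) 1 := by
  obtain ⟨F, hF, h⟩ := hT
  have h1 : SO (fun L => Nat.size (2 ^ L * F L)) 1 :=
    SO.size_mul (SO.size_of_le_two_pow (g := fun L => L) (Eventually.of_forall fun _ => le_rfl)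
      SO.id zero_le_one) (hF.size.mono zero_le_one)
  refine SO.of_le ?_ h1
  filter_upwards [h] with L h2 using Nat.size_le_size h2

theorem bridge (hT : SV T a) (ha : a < 1 - 1 / (2 : ℝ) ^ 182) :
    ∃ c : ℕ, ∀ n, T (Nat.size n) ≤ c * tb (2 * n) + c := by
  obtain ⟨F, hF, h⟩ := hT
  exact bridge_two_pow hF ha h

end SV

end Crest.Agent.X326
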