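import Crest.Agent.X326.Top.ParFB
import Crest.Agent.X326.Top.ParPT
import Crest.Agent.X326.TC.Un

/-!
# One budget for the whole top level (row 326)

`Tb L = 2 ^ L * pw (1 - 2^(-100)) L`.  Every cost `g L` with `SV g a`, `a < 1 - 2^(-100)`, is within
the budget `Tb` on *every* domain (no threshold needed).  The parameters are computable within it.
-/

set_option autoImplicit false

namespace Crest.Agent.X326

open Filter Crest.Agent.Lib.PT

/-- the exponent of the budget -/
noncomputable def aT : ℝ := 1 - 1 / (2 : ℝ) ^ 100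

theorem aT_lt : aT < 1 - 1 / (2 : ℝ) ^ 182 := by unfold aT; norm_num

theorem aT_pos : 0 < aT := by unfold aT; norm_num

theorem lt_aT {a : ℝ} (h : a ≤ 1 - 1 / (2 : ℝ) ^ 99) : a < aT := by
  refine h.trans_lt ?_
  unfold aT; norm_num

/-- the budget of the top level -/
noncomputable def Tb (L : ℕ) : ℕ := 2 ^ L * pw aT L

theorem sv_Tb : SV Tb aT :=
  (SV.two_pow.mul_so (SO.id.pw zero_le_one aT_pos.le)).mono (by simp)

theorem SV.le_Tb {g : ℕ → ℕ} {a : ℝ} (hg : SV g a) (ha : a < aT) :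
    ∃ C : ℕ, ∀ L, g L ≤ C * Tb L + C := by
  obtain ⟨F, hF, h⟩ := hg
  obtain ⟨C, hC⟩ := hF.bound ha
  refine global_of_eventually (c := C) ?_
  filter_upwards [h, hC] with L h1 h2
  have h3 : (F L : ℝ) ≤ (C * pw aT L : ℕ) := by
    push_cast
    exact h2.trans (mul_le_mul_of_nonneg_left (le_pw _ _) (Nat.cast_nonneg _))
  have h4 : F L ≤ C * pw aT L := by exact_mod_cast h3
  calc g L ≤ 2 ^ L * F L := h1
    _ ≤ 2 ^ L * (C * pw aT L) := Nat.mul_le_mul_left _ h4
    _ = C * Tb L := by unfold Tb; ring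

section bud

variable {α : Type} [PTCode α] {P : Dom α} {L : α → ℕ}

/-- a cost of exponent below `aT` is within the budget `Tb`, on every domain -/
theorem SV.bud {g : ℕ → ℕ} {a : ℝ} (hg : SV g a) (ha : a < aT) :
    Bud P (fun x => Tb (L x)) (fun x => g (L x)) := by
  obtain ⟨C, hC⟩ := hg.le_Tb ha
  exact Bud.of_le C 0 C fun x _ => by simpa using hC (L x)

theorem SV.bud0 {g : ℕ → ℕ} (hg : SV g 0) : Bud P (fun x => Tb (L x)) (fun x => g (L x)) :=
  hg.bud aT_pos

/-- the form used most often: a cost bounded on the domain by a function of `L` -/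
theorem SV.bud_le {g : ℕ → ℕ} {a : ℝ} (hg : SV g a) (ha : a < aT) {c : α → ℕ}
    (h : ∀ x, P x → c x ≤ g (L x)) : Bud P (fun x => Tb (L x)) c := (hg.bud ha).mono h

/-- quantities with `o(L)` bits are small -/
theorem SO.small_of_size {s : ℕ → ℕ} {a : ℝ} (hs : SO (fun L => Nat.size (s L)) a) (ha : a < 1) :
    Small P (fun x => Tb (L x)) (fun x => s (L x)) := by
  intro k
  have ha0 : SO (fun L => Nat.size (s L)) (Max.max a 0) := hs.mono (le_max_left _ _)
  have h0 : (0 : ℝ) ≤ Max.max a 0 := le_max_right _ _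
  refine SV.bud0 (g := fun L => (s L + 1) ^ k) (SV.of_le_two_pow ?_)
  exact SO.le_two_pow_of_size (SO.size_pow (SO.size_add ha0 ((SO.const 1).size.mono h0) h0) h0 k)
    (max_lt ha one_pos)

/-- polynomial quantities are small -/
theorem SO.small {s : ℕ → ℕ} {a : ℝ} (hs : SO s a) :
    Small P (fun x => Tb (L x)) (fun x => s (L x)) := hs.size.small_of_size one_pos

theorem small_L : Small P (fun x => Tb (L x)) L := SO.id.small

/-- a polynomial-time function of `L` (given in unary) is within the budget -/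
theorem tc_of_ptf_L {β : Type} [PTCode β] {g : Un → β} (hg : PTF g)
    (hL : TU P (fun x => Tb (L x)) L) : TC P (fun x => Tb (L x)) (fun x => g ⟨L x⟩) :=
  TC.ptf hg hL (small_L.mono fun x _ => by simp)

theorem tu_of_ptu_L {g : ℕ → ℕ} (hg : PTU fun u : Un => g u.val)
    (hL : TU P (fun x => Tb (L x)) L) : TU P (fun x => Tb (L x)) (fun x => g (L x)) :=
  tc_of_ptf_L (g := fun u : Un => Un.mk (g u.val)) hg hL

theorem tc_nat_of_ptf_L {g : ℕ → ℕ} (hg : PTF fun u : Un => g u.val)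
    (hL : TU P (fun x => Tb (L x)) L) : TC P (fun x => Tb (L x)) (fun x => g (L x)) :=
  tc_of_ptf_L (g := fun u : Un => g u.val) hg hL

end bud

namespace Par

theorem ptu_val : PTU fun u : Un => u.val := PTU.val PTF.id

/-! ### sizes of the large parameters -/

theorem sv_tt : SV tt 0 :=
  SV.of_le_two_pow (SO.le_two_pow_of_size so_size_tt (by norm_num))

theorem sv_rr : SV rr 0 :=
  SV.of_le_two_pow (SO.le_two_pow_of_size so_size_rr (by norm_num))

theorem gam_le_tt (L : ℕ) : gam L ≤ tt L := Nat.div_le_self _ _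

theorem sv_gam : SV gam 0 := SV.of_le' gam_le_tt sv_tt
theorem sv_QQ : SV QQ 0 := SV.of_le' QQ_le_tt sv_tt

theorem sv_dl : SV dl 0 :=
  SV.of_le_two_pow (SO.le_two_pow_of_size so_size_dl (by norm_num))

theorem sv_grid : SV (fun L => tt L ^ dd L * rr L) 0 := SV.of_le_two_pow ev_grid_le
theorem sv_tt_pow : SV (fun L => tt L ^ dd L) 0 := SV.of_le_two_pow ev_tt_pow_le
theorem sv_NN : SV NN 0 := SV.of_le' NN_le sv_tt_pow
theorem sv_NN_rr : SV (fun L => NN L * rr L) 0 := SV.of_le_two_pow ev_NN_mul_rr_le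

theorem sv_NN_rr_mul {f : ℕ → ℕ} {a : ℝ} (hf : SO f (a + 1)) (ha : 0 ≤ a) :
    SV (fun L => NN L * rr L * f L) a :=
  SV.of_le' (fun L => Nat.mul_le_mul_right _ (Nat.mul_le_mul_right _ (NN_le L)))
    (sv_grid_mul hf ha)

theorem so_size_gam : SO (fun L => Nat.size (gam L)) (31 / 32) :=
  SO.of_le' (fun L => Nat.size_le_size (gam_le_tt L)) so_size_tt

theorem so_size_QQ : SO (fun L => Nat.size (QQ L)) (31 / 32) :=
  SO.of_le' (fun L => Nat.size_le_size (QQ_le_tt L)) so_size_tt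

section tc

variable {α : Type} [PTCode α] {P : Dom α} {L : α → ℕ} (hL : TU P (fun x => Tb (L x)) L)
include hL

theorem tu_jj : TU P (fun x => Tb (L x)) (fun x => jj (L x)) := tu_of_ptu_L (ptu_jj ptu_val) hL
theorem tu_ff : TU P (fun x => Tb (L x)) (fun x => ff (L x)) := tu_of_ptu_L (ptu_ff ptu_val) hL
theorem tu_dd : TU P (fun x => Tb (L x)) (fun x => dd (L x)) := tu_of_ptu_L (ptu_dd ptu_val) hL
theorem tu_ee : TU P (fun x => Tb (L x)) (fun x => ee (L x)) := tu_of_ptu_L (ptu_ee ptu_val) hL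
theorem tu_kk : TU P (fun x => Tb (L x)) (fun x => kk (L x)) := tu_of_ptu_L (ptu_kk ptu_val) hL
theorem tu_rho : TU P (fun x => Tb (L x)) (fun x => rho (L x)) := tu_of_ptu_L (ptu_rho ptu_val) hL
theorem tu_nu : TU P (fun x => Tb (L x)) (fun x => nu (L x)) := tu_of_ptu_L (ptu_nu ptu_val) hL
theorem tu_pp : TU P (fun x => Tb (L x)) (fun x => pp (L x)) := tu_of_ptu_L (ptu_pp ptu_val) hL
theorem tu_PP : TU P (fun x => Tb (L x)) (fun x => PP (L x)) := tu_of_ptu_L (ptu_PP ptu_val) hL
theorem tu_nn : TU P (fun x => Tb (L x)) (fun x => nn (L x)) := tu_of_ptu_L (ptu_nn ptu_val) hL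
theorem tu_beta : TU P (fun x => Tb (L x)) (fun x => beta (L x)) :=
  tu_of_ptu_L (ptu_beta ptu_val) hL
theorem tu_BB : TU P (fun x => Tb (L x)) (fun x => BB (L x)) := tu_of_ptu_L (ptu_BB ptu_val) hL

theorem tc_tt : TC P (fun x => Tb (L x)) (fun x => tt (L x)) := tc_nat_of_ptf_L (ptf_tt ptu_val) hL
theorem tc_rr : TC P (fun x => Tb (L x)) (fun x => rr (L x)) := tc_nat_of_ptf_L (ptf_rr ptu_val) hL
theorem tc_gam : TC P (fun x => Tb (L x)) (fun x => gam (L x)) :=
  tc_nat_of_ptf_L (ptf_gam ptu_val) hL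
theorem tc_QQ : TC P (fun x => Tb (L x)) (fun x => QQ (L x)) := tc_nat_of_ptf_L (ptf_QQ ptu_val) hL
theorem tc_dl : TC P (fun x => Tb (L x)) (fun x => dl (L x)) := tc_nat_of_ptf_L (ptf_dl ptu_val) hL
theorem tc_NN : TC P (fun x => Tb (L x)) (fun x => NN (L x)) := tc_nat_of_ptf_L (ptf_NN ptu_val) hL

theorem tu_tt : TU P (fun x => Tb (L x)) (fun x => tt (L x)) := TU.ofNat (tc_tt hL) sv_tt.bud0
theorem tu_rr : TU P (fun x => Tb (L x)) (fun x => rr (L x)) := TU.ofNat (tc_rr hL) sv_rr.bud0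
theorem tu_gam : TU P (fun x => Tb (L x)) (fun x => gam (L x)) := TU.ofNat (tc_gam hL) sv_gam.bud0
theorem tu_QQ : TU P (fun x => Tb (L x)) (fun x => QQ (L x)) := TU.ofNat (tc_QQ hL) sv_QQ.bud0
theorem tu_dl : TU P (fun x => Tb (L x)) (fun x => dl (L x)) := TU.ofNat (tc_dl hL) sv_dl.bud0
theorem tu_NN : TU P (fun x => Tb (L x)) (fun x => NN (L x)) := TU.ofNat (tc_NN hL) sv_NN.bud0

end tc

section small

variable {α : Type} [PTCode α] {P : Dom α} {L : α → ℕ}

theorem small_tt : Small P (fun x => Tb (L x)) (fun x => tt (L x)) :=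
  so_size_tt.small_of_size (by norm_num)
theorem small_rr : Small P (fun x => Tb (L x)) (fun x => rr (L x)) :=
  so_size_rr.small_of_size (by norm_num)
theorem small_gam : Small P (fun x => Tb (L x)) (fun x => gam (L x)) :=
  so_size_gam.small_of_size (by norm_num)
theorem small_QQ : Small P (fun x => Tb (L x)) (fun x => QQ (L x)) :=
  so_size_QQ.small_of_size (by norm_num)
theorem small_dl : Small P (fun x => Tb (L x)) (fun x => dl (L x)) :=
  so_size_dl.small_of_size (by norm_num)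

end small

/-- the room needed by the layer (ancillas, streams) -/
theorem ev_layer_room (w c : ℕ) : ∀ᶠ L in atTop,
    ff L * Nat.size (ff L) + w * jj L + 2 * Nat.size (ff L) + c ≤ kk L := by
  refine SO.le_kk (a := 1 / 32) ?_ (by norm_num)
  exact (((so_ff.mul_zero' so_ff.size).add ((so_jj.const_mul w).mono (by norm_num))).add
    ((so_ff.size.const_mul 2).mono (by norm_num))).add_const (by norm_num) c

end Par

end Crest.Agent.X326
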