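import Crest.Agent.X326.Top.ParM4
import Crest.Agent.X326.FB.PolyDefs

/-!
# The cost formulas of the components are within the budget (row 326)
-/

set_option autoImplicit false

namespace Crest.Agent.X326.Par

open Filter Crest.Agent.Lib.PT

/-- quasi-linear cost functions of a convolution of `r` entries of `p` bits -/
def MuOk (μ : ℕ → ℕ → ℕ) : Prop :=
  ∃ C c : ℕ, ∀ r p, μ r p ≤
    C * ((r + 1) * ((p + Nat.size r + 1) * (Nat.size r + 1) * (Nat.size (p + Nat.size r) + 1) ^ c))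

variable {μ : ℕ → ℕ → ℕ}

/-- the cost per entry -/
theorem so_mu_entry {r p : ℕ → ℕ} {a b : ℝ} (hr : SO (fun L => Nat.size (r L)) a) (hp : SO p b)
    (ha : 0 ≤ a) (hab : a ≤ b) (c : ℕ) :
    SO (fun L => (p L + Nat.size (r L) + 1) * (Nat.size (r L) + 1) *
      (Nat.size (p L + Nat.size (r L)) + 1) ^ c) (b + a) := by
  have h1 : SO (fun L => p L + Nat.size (r L)) b := hp.add (hr.mono hab)
  exact ((h1.add_const (ha.trans hab) 1).mul (hr.add_const ha 1)).mul_zero'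
    ((h1.size.add_const le_rfl 1).pow_zero' c)

/-- the pointwise products of M4 -/
theorem sv_pointwise (hμ : MuOk μ) : SV (fun L => tt L ^ dd L * μ (rr L) (PP L)) (31 / 32) := by
  obtain ⟨C, c, h⟩ := hμ
  have h1 := so_mu_entry so_size_rr so_PP (by norm_num) (by norm_num) c
  have h2 := sv_grid_mul (a := 31 / 32) (h1.mono (by norm_num)) (by norm_num)
  refine SV.of_le' (fun L => ?_) (h2.const_mul (C * 2))
  have h3 := h (rr L) (PP L)
  have h4 := rr_pos L
  generalize (PP L + Nat.size (rr L) + 1) * (Nat.size (rr L) + 1) *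
    (Nat.size (PP L + Nat.size (rr L)) + 1) ^ c = E at h3 ⊢
  calc tt L ^ dd L * μ (rr L) (PP L) ≤ tt L ^ dd L * (C * ((2 * rr L) * E)) :=
        Nat.mul_le_mul_left _ (h3.trans (Nat.mul_le_mul_left _
          (Nat.mul_le_mul_right _ (by omega))))
    _ = _ := by ring

/-- the factor of one layer: `(j + 1) * (m ^ j * (q + c)) ^ τ` -/
theorem so_layer_factor {τ : ℝ} (hτ : 0 ≤ τ) {q : ℕ → ℕ} (hq : SO q 0) :
    SO (fun L => (jj L + 1) * pw τ (ff L * q L)) (τ / 32) :=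
  ((so_jj.add_const le_rfl 1).zero_mul' ((so_ff.mul_zero' hq).pw (by norm_num) hτ)).mono
    (le_of_eq (by ring))

theorem so_size_g : SO (fun L => Nat.size (2 ^ Nat.size (ff L) + 1)) 0 :=
  ((so_ff.two_pow_size (by norm_num)).add_const (by norm_num) 1).size

/-- `k` rounds with a layer of cost `TL`, `SV TL (τ / 32)` -/
theorem sv_rounds {τ : ℝ} (hτ0 : 0 ≤ τ) {TL : ℕ → ℕ} (hTL : SV TL (τ / 32)) :
    SV (fun L => kk L * (TL L + (par L).vol)) (31 / 32 + τ / 32) :=
  SV.so_mul so_kk (hTL.add (sv_par_vol.mono (by positivity)))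

/-- the whole cost of M4 -/
theorem sv_m4 {τ : ℝ} (hτ0 : 0 ≤ τ) {TL : M4.Par → ℕ} (hTL : SV (fun L => TL (par L)) (τ / 32))
    (hμ : MuOk μ) :
    SV (fun L => (par L).k * (TL (par L) + (par L).vol) + (par L).N * μ (par L).r (par L).P)
      (31 / 32 + τ / 32) := by
  simp only [par_k, par_N, par_r, par_P]
  exact (sv_rounds hτ0 hTL).add ((sv_pointwise hμ).mono (by linarith))

theorem m4_exp_lt_aT {τ : ℝ} (hτ : τ ≤ 1 - 1 / (2 : ℝ) ^ 90) : 31 / 32 + τ / 32 < aT := by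
  refine lt_aT ?_
  have : (1 : ℝ) / 2 ^ 99 ≤ 1 / (2 : ℝ) ^ 90 / 32 := by norm_num
  linarith

/-- a layer cost of the form `φ * vol` -/
theorem sv_mul_vol {φ : ℕ → ℕ} {a : ℝ} (hφ : SO φ a) : SV (fun L => φ L * (par L).vol) a :=
  (SV.so_mul hφ sv_par_vol).mono (by simp)

theorem sv_vol_mul {φ : ℕ → ℕ} {a : ℝ} (hφ : SO φ a) : SV (fun L => (par L).vol * φ L) a :=
  (sv_par_vol.mul_so hφ).mono (by simp)

/-- one level of the filter bank on at most `tt ^ dd * rr` entries of width `w` -/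
theorem sv_bandCost (hμ : MuOk μ) {w : ℕ → ℕ} {a : ℝ} (hw : SO w (a + 1)) (ha : 0 ≤ a) :
    SV (fun L => FB.bandCost μ (nu L * (tt L ^ dd L * rr L)) (beta L) (w L)) (a + 1 / 32) := by
  obtain ⟨C, c, h⟩ := hμ
  have hβ : SO beta (a + 1) := so_beta.mono (by linarith)
  have h1 : SV (fun L => nu L * (tt L ^ dd L * rr L * ((w L + beta L + 1) * (beta L + 1))))
      (1 / 32 + a) :=
    SV.so_mul so_nu (sv_grid_mul (((hw.add hβ).add_const (by linarith) 1).mul_zero'
      (so_beta.add_const le_rfl 1)) ha)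
  have hs : SO (fun L => Nat.size (2 ^ (beta L + 1))) 0 :=
    SO.size_of_le_two_pow (g := fun L => beta L + 1) (Eventually.of_forall fun _ => le_rfl)
      (so_beta.add_const le_rfl 1) le_rfl
  have h2 := so_mu_entry hs hw le_rfl (by linarith) c
  have h3 := SV.so_mul so_nu (sv_grid_mul (a := a) (h2.mono (by simp)) ha)
  refine SV.of_le' (fun L => ?_) ((h1.add (h3.const_mul (C * 3))).mono (by linarith))
  unfold FB.bandCost
  refine Nat.add_le_add (le_of_eq (by ring)) ?_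
  have h4 := h (2 ^ (beta L + 1)) (w L)
  generalize (w L + Nat.size (2 ^ (beta L + 1)) + 1) * (Nat.size (2 ^ (beta L + 1)) + 1) *
    (Nat.size (w L + Nat.size (2 ^ (beta L + 1))) + 1) ^ c = E at h4 ⊢
  have h5 : nu L * (tt L ^ dd L * rr L) / 2 ^ beta L * 2 ^ beta L ≤ nu L * (tt L ^ dd L * rr L) :=
    Nat.div_mul_le_self _ _
  have h6 : 0 < 2 ^ beta L := by positivity
  have h7 : 2 ^ (beta L + 1) + 1 ≤ 3 * 2 ^ beta L := by rw [pow_succ]; omega
  calc nu L * (tt L ^ dd L * rr L) / 2 ^ beta L * μ (2 ^ (beta L + 1)) (w L)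
      ≤ nu L * (tt L ^ dd L * rr L) / 2 ^ beta L * (C * ((3 * 2 ^ beta L) * E)) :=
        Nat.mul_le_mul_left _ (h4.trans (Nat.mul_le_mul_left _ (Nat.mul_le_mul_right _ h7)))
    _ = C * 3 * ((nu L * (tt L ^ dd L * rr L) / 2 ^ beta L * 2 ^ beta L) * E) := by ring
    _ ≤ C * 3 * ((nu L * (tt L ^ dd L * rr L)) * E) :=
        Nat.mul_le_mul_left _ (Nat.mul_le_mul_right _ h5)
    _ = _ := by ring

/-- all levels of the filter bank: `c L` levels (exponent `b`) -/
theorem sv_mul_bandCost (hμ : MuOk μ) {w c : ℕ → ℕ} {a b : ℝ} (hw : SO w (a + 1)) (ha : 0 ≤ a)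
    (hc : SO c b) :
    SV (fun L => c L * FB.bandCost μ (nu L * (tt L ^ dd L * rr L)) (beta L) (w L))
      (b + (a + 1 / 32)) :=
  SV.so_mul hc (sv_bandCost hμ hw ha)

theorem bandCost_mono_n (μ : ℕ → ℕ → ℕ) {n n' : ℕ} (h : n ≤ n') (β w : ℕ) :
    FB.bandCost μ n β w ≤ FB.bandCost μ n' β w := by
  unfold FB.bandCost
  exact Nat.add_le_add (Nat.mul_le_mul_right _ (Nat.mul_le_mul_right _ h))
    (Nat.mul_le_mul_right _ (Nat.div_le_div_right h))

theorem nu_le_BB (L : ℕ) : nu L ≤ BB L :=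
  (Nat.le_mul_of_pos_right _ (by omega)).trans (nu_mul_lt_BB L).le

end Crest.Agent.X326.Par
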