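import Crest.Agent.X326.Top.Glue2
import Crest.Agent.X326.Top.Main
import Crest.Agent.X326.B3.Layer
import Crest.Agent.X326.FB.PolyTC

/-!
# Row 326: the multiplication statement from part B
-/

set_option autoImplicit false

namespace Crest.Agent.X326.Top.P2

open Crest.Agent.Lib.PT

theorem specMul_of_partB {w : ℕ}
    (h : B3.PartBStatement (2 ^ w) (2 ^ 18) (1 - 1 / (2 : ℝ) ^ 40)) : SpecMul :=
  specMul_of_layer (w := w)
    (B3.specLayer_of_partB (w := w) (m := 2 ^ 18) (by norm_num) (by norm_num) h)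
    (FB.anaLTC Mul.specConv) (FB.synLTC Mul.specConv)

theorem specMul_of_partB'
    (h : ∃ W m : ℕ, W = 2 ^ 63 ∧ m = 2 ^ 18 ∧ B3.PartBStatement W m (1 - 1 / (2 : ℝ) ^ 40)) :
    SpecMul := by
  obtain ⟨W, m, hW, hm, h⟩ := h
  rw [hW, hm] at h
  exact specMul_of_partB (w := 63) h

end Crest.Agent.X326.Top.P2
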