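import Crest.Agent.X326.Top.Pipe2
import Crest.Agent.X326.Top.Alg
import Crest.Agent.X326.Top.Main
import Crest.Agent.X326.M4.Main
import Crest.Agent.X326.B3.LayerPure
import Crest.Agent.X326.FB.Taps
import Crest.Agent.X326.FB.Poly
import Crest.Agent.X326.FB.PolyWd
import Crest.Agent.X326.FB.PolyAll

/-!
# Row 326: the multiplication statement from the layer, the base convolution and the band costs
-/

set_option autoImplicit false

namespace Crest.Agent.X326.Top.P2

open Filter Crest.Agent.Lib.PT FB Par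

theorem ev_layerOk (w : ℕ) : ∀ᶠ L in atTop, B3.LayerOk w (2 ^ 18) (par L) := by
  filter_upwards [ev_par_ok, ev_jj_ge 1, ev_layer_room w 3] with L h1 h2 h3
  exact ⟨h1, jj L, h2, rfl, h3⟩

theorem log_ff (L : ℕ) : Nat.log (2 ^ 18) (ff L) = jj L := Nat.log_pow (by norm_num) _

/-- the cost of one layer at the chosen parameters -/
theorem sv_layer {τ : ℝ} (hτ : 0 ≤ τ) :
    SV (fun L => (par L).vol * ((Nat.log (2 ^ 18) ((par L).d - 3) + 1) *
      pw τ (((par L).d - 3) * (Nat.size ((par L).d - 3) + 2)))) (τ / 32) := by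
  have h := sv_vol_mul (so_layer_factor hτ (so_ff.size.add_const le_rfl 2))
  refine SV.of_le' (fun L => le_of_eq ?_) h
  have e : (par L).d - 3 = ff L := by simp [dd]
  rw [e, log_ff]

/-- **Assembly.** -/
theorem specMul_of {ok : M4.Par → Prop} {TL : M4.Par → ℕ} {μ : ℕ → ℕ → ℕ} {τ : ℝ}
    (hτ0 : 0 ≤ τ) (hτ : τ ≤ 1 - 1 / (2 : ℝ) ^ 90) (hlay : M4.SpecLayer ok TL)
    (hok : ∀ᶠ L in atTop, ok (par L)) (hTL : SV (fun L => TL (par L)) (τ / 32))
    (hconv : M4.SpecConv μ) (hμ : MuOk μ) (hA : AnaLTC μ) (hS : SynLTC μ) : SpecMul := by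
  have h4 := specGrid (M4.mainM4 ok TL μ hlay hconv)
  have ha : (0 : ℝ) ≤ 31 / 32 + τ / 32 := by positivity
  have hcyc : SpecCyc Tb :=
    specCyc h4 (hok.and ev_par_ok) ((sv_m4 hτ0 hTL hμ).add (sv_par_vol.mono ha)) (m4_exp_lt_aT hτ)
      hμ tapsStatement (prepL_of anaL_spec) (finishL_of synL_spec)
      (prepLTC_of anaL_spec widthStatement hA) (finishLTC_of synL_spec widthStatement hS)
  exact mulStatement _ aT (sv_Tb.add (SV.two_pow.mono aT_pos.le)) aT_lt (bigStatement _ hcyc)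

end Crest.Agent.X326.Top.P2
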