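import Crest.Agent.X326.M4.Defs
import Crest.Agent.X326.FB.Tab
import Crest.Agent.X326.TC.NatLin
import Crest.Agent.X326.TC.Un
import Crest.Agent.X326.TC.Map
import Crest.Agent.X326.TC.ListLin
import Crest.Agent.X326.TC.Deal
import Crest.Agent.Lib.PT.ArithInt

/-!
# Row 326, top level: the exact convolution on the grid for flat integer lists

The program of `M4.SpecM4` works on records of residues modulo `M = 2 ^ P - 1`.  Here it is
wrapped into a program on flat lists of integers: reduce, cut into records, convolve, flatten and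
lift to the balanced representatives.
-/

set_option autoImplicit false

namespace Crest.Agent.X326.Top

open Crest.Agent.Lib.PT FB

/-- a flat integer array on the grid of `p`, with entries of absolute value below the modulus -/
def GrL (p : M4.Par) (l : List ℤ) : Prop := l.length = p.N * p.r ∧ ∀ z ∈ l, |z| < (p.M : ℤ)

/-- **The exact grid convolution on flat integer lists**, at cost `T`. -/
def SpecGrid (ok : M4.Par → Prop) (T : M4.Par → ℕ) : Prop :=
  ∃ G : M4.Par × List ℤ × List ℤ → List ℤ,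
    TC (fun q => ok q.1 ∧ GrL q.1 q.2.1 ∧ GrL q.1 q.2.2) (fun q => T q.1) G ∧
    ∀ (p : M4.Par) (a b : Arr), ok p → (∀ x < p.N * p.r, |a x| < (p.M : ℤ)) →
      (∀ x < p.N * p.r, |b x| < (p.M : ℤ)) →
      (∀ x < p.N * p.r, 2 * |tower p.t (p.d - 1) p.r (nega p.r) a b x| < (p.M : ℤ)) →
      G (p, tab (p.N * p.r) a, tab (p.N * p.r) b) =
        tab (p.N * p.r) (tower p.t (p.d - 1) p.r (nega p.r) a b)

namespace Gr

/-- the residue of an integer of absolute value below `M` -/
def res (M : ℕ) (z : ℤ) : ℕ := if z < 0 then M - z.natAbs else z.natAbs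

/-- the balanced representative of a residue -/
def lift (M c : ℕ) : ℤ := if M < 2 * c ∧ c < M then -((M - c : ℕ) : ℤ) else c

theorem res_lt {M : ℕ} {z : ℤ} (h : |z| < (M : ℤ)) : res M z < M := by
  rw [abs_lt] at h
  unfold res
  split_ifs <;> omega

theorem cast_res {M : ℕ} {z : ℤ} (h : |z| < (M : ℤ)) : ((res M z : ℕ) : ZMod M) = (z : ZMod M) := by
  rw [abs_lt] at h
  have e : ((res M z : ℕ) : ℤ) = z ∨ ((res M z : ℕ) : ℤ) = z + M := by
    unfold res
    split_ifs <;> omega
  rw [← Int.cast_natCast]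
  rcases e with e | e <;> simp [e]

theorem lift_eq {M c : ℕ} {z : ℤ} (hc : c < M) (h : (c : ZMod M) = (z : ZMod M))
    (hz : 2 * |z| < (M : ℤ)) : lift M c = z := by
  rw [← Int.cast_natCast, ZMod.intCast_eq_intCast_iff_dvd_sub] at h
  obtain ⟨k, hk⟩ := h
  have hz' : -(M : ℤ) < 2 * z ∧ 2 * z < M := by
    rcases abs_cases z with h | h <;> omega
  have hM : (0 : ℤ) < M := by omega
  have k1 : k < 1 := by
    by_contra hk1
    have : (M : ℤ) * 1 ≤ M * k := Int.mul_le_mul_of_nonneg_left (by omega) hM.le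
    omega
  have k2 : -2 < k := by
    by_contra hk2
    have : (M : ℤ) * k ≤ M * (-2) := Int.mul_le_mul_of_nonneg_left (by omega) hM.le
    omega
  have : k = 0 ∨ k = -1 := by omega
  unfold lift
  rcases this with rfl | rfl <;> split_ifs <;> omega

section TC

variable {α : Type} [PTCode α] {P : Dom α} {T : Cost α}

theorem tc_pair {z : α → ℤ} (hz : TC P T z) :
    TC P T (fun x => (decide (z x < 0), (z x).natAbs)) := hz.recode fun _ _ => rfl

theorem lin_res : Lin (fun q : ℕ × ℤ => res q.1 q.2) := by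
  have h : Lin (fun q : ℕ × ℤ => (decide (q.2 < 0), q.2.natAbs)) := tc_pair (by fun_prop)
  have h1 : Lin (fun q : ℕ × ℤ => decide (q.2 < 0)) := h.fst
  have h2 : Lin (fun q : ℕ × ℤ => q.2.natAbs) := h.snd
  exact TC.ite' h1 (TC.natSub (by fun_prop) h2.tc) h2.tc

theorem lin_lift : Lin (fun q : ℕ × ℕ => lift q.1 q.2) := by
  have hp : TP (fun _ : ℕ × ℕ => True) (fun _ => 0) (fun q => q.1 < 2 * q.2 ∧ q.2 < q.1) :=
    TP.and (TP.natLt (by fun_prop) (TC.natConstMul 2 (by fun_prop)))
      (TP.natLt (by fun_prop) (by fun_prop))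
  have h : Lin (fun q : ℕ × ℕ => if q.1 < 2 * q.2 ∧ q.2 < q.1 then (true, q.1 - q.2)
      else (false, q.2)) :=
    TC.ite hp (TC.prodMk (TC.const _) (TC.natSub (by fun_prop) (by fun_prop)))
      (TC.prodMk (TC.const _) (by fun_prop))
  refine h.recode fun q _ => ?_
  change enc _ = enc (decide (lift q.1 q.2 < 0), (lift q.1 q.2).natAbs)
  congr 1
  unfold lift
  split_ifs with hq
  · refine Prod.ext (by simp; omega) (by simp only [Int.natAbs_neg, Int.natAbs_natCast])
  · refine Prod.ext (by simp) (by simp)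

theorem tc_parts {p : α → M4.Par} (hp : TC P T p) :
    TC P T (fun x => (Un.mk (p x).k, Un.mk (p x).d, Un.mk (p x).lr, Un.mk (p x).P)) :=
  hp.recode fun _ _ => rfl

theorem tu_lr {p : α → M4.Par} (hp : TC P T p) : TU P T (fun x => (p x).lr) :=
  (tc_parts hp).snd.snd.fst

theorem tu_P {p : α → M4.Par} (hp : TC P T p) : TU P T (fun x => (p x).P) :=
  (tc_parts hp).snd.snd.snd

theorem tc_M {p : α → M4.Par} (hp : TC P T p) : TC P T (fun x => (p x).M) :=
  TC.natSub (TC.natTwoPow (tu_P hp)) (TC.const 1)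

theorem sz_M_le (p : M4.Par) : sz p.M ≤ p.P :=
  sz_le_of_lt_two_pow (Nat.sub_lt (by positivity) one_pos)

end TC

/-- reduce and cut into records -/
def inL (p : M4.Par) (l : List ℤ) : List (List ℕ) := chunks p.r (l.map (res p.M))

/-- flatten and lift -/
def outL (p : M4.Par) (c : List (List ℕ)) : List ℤ := c.flatten.map (lift p.M)

theorem r_pos (p : M4.Par) : 0 < p.r := by unfold M4.Par.r; positivity

theorem N_pos (p : M4.Par) : 0 < p.N := by unfold M4.Par.N; positivity

theorem inL_tab (p : M4.Par) (a : Arr) :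
    inL p (tab (p.N * p.r) a) = tab p.N fun n => tab p.r fun j => res p.M (a (n * p.r + j)) := by
  rw [inL, map_tab, chunks_tab _ (r_pos p)]

theorem idx_lt {N r n j : ℕ} (hn : n < N) (hj : j < r) : n * r + j < N * r := by
  have : (n + 1) * r ≤ N * r := Nat.mul_le_mul_right r hn
  rw [Nat.succ_mul] at this
  omega

theorem wf_inL_tab (p : M4.Par) {a : Arr} (ha : ∀ x < p.N * p.r, |a x| < (p.M : ℤ)) :
    p.WF (inL p (tab (p.N * p.r) a)) := by
  rw [inL_tab]
  refine ⟨by simp, forall_mem_tab.2 fun n hn => ⟨by simp, forall_mem_tab.2 fun j hj => ?_⟩⟩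
  exact res_lt (ha _ (idx_lt hn hj))

theorem coef_inL_tab (p : M4.Par) {a : Arr} (ha : ∀ x < p.N * p.r, |a x| < (p.M : ℤ))
    (n : ℕ) (hn : n < p.N) (j : ℕ) (hj : j < p.r) :
    M4.coef p.M (inL p (tab (p.N * p.r) a)) j n = ((a (n * p.r + j) : ℤ) : ZMod p.M) := by
  rw [inL_tab, M4.coef, getD_tab _ _ hn, getD_tab _ _ hj, cast_res (ha _ (idx_lt hn hj))]

theorem wf_inL {p : M4.Par} {l : List ℤ} (h : GrL p l) : p.WF (inL p l) := by
  rw [eq_tab h.1 0]
  refine wf_inL_tab p fun x hx => h.2 _ ?_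
  rw [List.getD_eq_getElem _ _ (by rw [h.1]; exact hx)]
  exact List.getElem_mem _

theorem eq_tab_of_wf {p : M4.Par} {c : List (List ℕ)} (h : p.WF c) :
    c = tab p.N fun n => tab p.r fun j => (c.getD n []).getD j 0 := by
  conv_lhs => rw [eq_tab h.1 []]
  refine tab_congr fun n hn => eq_tab (h.2 _ ?_).1 0
  rw [List.getD_eq_getElem _ _ (by rw [h.1]; exact hn)]
  exact List.getElem_mem _

theorem length_flatten_of_wf {p : M4.Par} {c : List (List ℕ)} (h : p.WF c) :
    c.flatten.length = p.N * p.r := by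
  rw [eq_tab_of_wf h, flatten_tab, length_tab]

theorem outL_eq {p : M4.Par} {c : List (List ℕ)} (h : p.WF c) {w : Arr}
    (hw : ∀ n < p.N, ∀ j < p.r, M4.coef p.M c j n = ((w (n * p.r + j) : ℤ) : ZMod p.M))
    (hb : ∀ x < p.N * p.r, 2 * |w x| < (p.M : ℤ)) : outL p c = tab (p.N * p.r) w := by
  rw [outL, eq_tab_of_wf h, flatten_tab, map_tab]
  refine tab_congr fun x hx => ?_
  have hr := r_pos p
  have hn : x / p.r < p.N := by rwa [Nat.div_lt_iff_lt_mul hr]
  have hj : x % p.r < p.r := Nat.mod_lt _ hr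
  have hx' : x / p.r * p.r + x % p.r = x := Nat.div_add_mod' x p.r
  have hm : c.getD (x / p.r) [] ∈ c := by
    rw [List.getD_eq_getElem _ _ (by rw [h.1]; exact hn)]
    exact List.getElem_mem _
  have hM : 0 < p.M := by
    have := hb x hx
    have := abs_nonneg (w x)
    omega
  refine lift_eq ((h.2 _ hm).getD_lt hM _) ?_ (hb x hx)
  have := hw _ hn _ hj
  rwa [hx'] at this

section TC

variable {α : Type} [PTCode α] {P : Dom α} {T : Cost α}

theorem tc_inL {p : α → M4.Par} {l : α → List ℤ} (hp : TC P T p) (hl : TC P T l)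
    (hlen : ∀ x, P x → (l x).length = (p x).N * (p x).r) (hv : Bud P T (fun x => (p x).vol)) :
    TC P T (fun x => inL (p x) (l x)) := by
  have hr : TU P T (fun x => (p x).r) :=
    TU.twoPow (tu_lr hp) ((Bud.length hl).mono fun x hx => by
      rw [hlen x hx]
      exact Nat.le_mul_of_pos_left _ (N_pos _))
  refine TC.chunksTU hr (TC.mapCtx_lin (f := res) lin_res (tc_M hp) hl (hv.mono fun x hx => ?_))
  rw [hlen x hx]
  exact Nat.mul_le_mul_left _ (sz_M_le _)

theorem tc_outL {p : α → M4.Par} {c : α → List (List ℕ)} (hp : TC P T p) (hc : TC P T c)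
    (hwf : ∀ x, P x → (p x).WF (c x)) (hv : Bud P T (fun x => (p x).vol)) :
    TC P T (fun x => outL (p x) (c x)) := by
  refine TC.mapCtx_lin (f := lift) lin_lift (tc_M hp) hc.flatten (hv.mono fun x hx => ?_)
  rw [length_flatten_of_wf (hwf x hx)]
  exact Nat.mul_le_mul_left _ (sz_M_le _)

end TC

end Gr

open Gr in
/-- The grid convolution on integer lists from the one on records of residues. -/
theorem specGrid {ok : M4.Par → Prop} {T : M4.Par → ℕ} (h : M4.SpecM4 ok T) :
    SpecGrid ok (fun p => T p + p.vol) := by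
  obtain ⟨cv, hcv, hspec⟩ := h
  refine ⟨fun q => outL q.1 (cv (q.1, inL q.1 q.2.1, inL q.1 q.2.2)), ?_, ?_⟩
  · have hv : Bud (fun q : M4.Par × List ℤ × List ℤ => ok q.1 ∧ GrL q.1 q.2.1 ∧ GrL q.1 q.2.2)
        (fun q => T q.1 + q.1.vol) (fun q => q.1.vol) :=
      Bud.of_le_mul 1 fun _ _ => by omega
    refine tc_outL (by fun_prop) (hcv.comp (TC.prodMk (by fun_prop) (TC.prodMk
      (tc_inL (by fun_prop) (by fun_prop) (fun _ hx => hx.2.1.1) hv)
      (tc_inL (by fun_prop) (by fun_prop) (fun _ hx => hx.2.2.1) hv)))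
      (fun _ hx => ⟨hx.1, wf_inL hx.2.1, wf_inL hx.2.2⟩) (Bud.of_le_mul 1 fun _ _ => by simp))
      (fun _ hx => (hspec _ _ _ hx.1 (wf_inL hx.2.1) (wf_inL hx.2.2)).1) hv
  · intro p a b hp ha hb hc
    obtain ⟨hwf, hs⟩ := hspec p _ _ hp (wf_inL_tab p ha) (wf_inL_tab p hb)
    exact outL_eq hwf (hs a b (coef_inL_tab p ha) (coef_inL_tab p hb)) hc

end Crest.Agent.X326.Top
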