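import Crest.Agent.X326.Top.SO

/-!
# Soft lower bounds (row 326, top level asymptotics)

`LB f a` : `L^(a-δ) ≤ f L` eventually, for every `δ > 0`.  Together with `SO` this gives
comparison lemmas (`SO.eventually_le_lb`, `SO.eventually_lt_two_pow_lb`) and quotients.
`ex E L = 2 ^ (log₂ L / E)` is the basic power-of-two parameter of exact order `L ^ (1/E)`.
-/

set_option autoImplicit false

namespace Crest.Agent.X326

open Filter

/-- `L ^ (a - δ) ≤ f L` eventually, for every `δ > 0`. -/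
def LB (f : ℕ → ℕ) (a : ℝ) : Prop :=
  ∀ δ : ℝ, 0 < δ → ∀ᶠ L : ℕ in atTop, (L : ℝ) ^ (a - δ) ≤ f L

theorem eventually_const_le_rpow (C : ℝ) {δ : ℝ} (hδ : 0 < δ) :
    ∀ᶠ L : ℕ in atTop, C ≤ (L : ℝ) ^ δ :=
  ((tendsto_rpow_atTop hδ).comp tendsto_natCast_atTop_atTop).eventually_ge_atTop C

namespace LB

variable {f g : ℕ → ℕ} {a b : ℝ}

theorem of_le (h : ∀ᶠ L in atTop, f L ≤ g L) (hf : LB f a) : LB g a := by
  intro δ hδ
  filter_upwards [h, hf δ hδ] with L h1 h2
  exact h2.trans (by exact_mod_cast h1)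

theorem of_le' (h : ∀ L, f L ≤ g L) (hf : LB f a) : LB g a := of_le (Eventually.of_forall h) hf

theorem mono (hf : LB f a) (hab : b ≤ a) : LB f b := by
  intro δ hδ
  filter_upwards [hf δ hδ, eventually_ge_atTop 1] with L h1 h2
  have h3 : (1 : ℝ) ≤ L := by exact_mod_cast h2
  exact (Real.rpow_le_rpow_of_exponent_le h3 (by linarith)).trans h1

/-- a real lower bound `L ^ a ≤ C * f L` -/
theorem of_bound (C : ℝ) (h : ∀ᶠ L : ℕ in atTop, (L : ℝ) ^ a ≤ C * f L) : LB f a := by
  intro δ hδ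
  filter_upwards [h, eventually_const_le_rpow C hδ, eventually_ge_atTop 1] with L h1 h2 h3
  have h4 : (0 : ℝ) < L := by exact_mod_cast h3
  have h5 : (0 : ℝ) < (L : ℝ) ^ δ := Real.rpow_pos_of_pos h4 δ
  rw [Real.rpow_sub h4, div_le_iff₀ h5]
  refine h1.trans ?_
  rw [mul_comm]
  exact mul_le_mul_of_nonneg_left h2 (Nat.cast_nonneg _)

theorem id : LB (fun L => L) 1 := of_bound 1 (Eventually.of_forall fun L => by simp)

theorem of_pos (h : ∀ᶠ L in atTop, 0 < f L) : LB f 0 := by
  refine of_bound 1 ?_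
  filter_upwards [h] with L h1
  have : (1 : ℝ) ≤ f L := by exact_mod_cast h1
  simpa using this

theorem eventually_pos (hf : LB f a) : ∀ᶠ L in atTop, 0 < f L := by
  filter_upwards [hf 1 one_pos, eventually_ge_atTop 1] with L h1 h2
  have h4 : (0 : ℝ) < L := by exact_mod_cast h2
  have := (Real.rpow_pos_of_pos h4 (a - 1)).trans_le h1
  exact_mod_cast this

theorem mul (hf : LB f a) (hg : LB g b) : LB (fun L => f L * g L) (a + b) := by
  intro δ hδ
  filter_upwards [hf (δ / 2) (by linarith), hg (δ / 2) (by linarith), eventually_ge_atTop 1]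
    with L h1 h2 h3
  have h4 : (0 : ℝ) < L := by exact_mod_cast h3
  have e : (L : ℝ) ^ (a + b - δ) = (L : ℝ) ^ (a - δ / 2) * (L : ℝ) ^ (b - δ / 2) := by
    rw [← Real.rpow_add h4]; congr 1; ring
  rw [e, Nat.cast_mul]
  exact mul_le_mul h1 h2 (by positivity) (Nat.cast_nonneg _)

theorem pow (hf : LB f a) (n : ℕ) : LB (fun L => f L ^ n) (n * a) := by
  induction n with
  | zero => simpa using of_pos (f := fun _ => 1) (Eventually.of_forall fun _ => one_pos)
  | succ n ih =>
    have := ih.mul hf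
    simp only [← pow_succ] at this
    refine this.mono (le_of_eq ?_)
    push_cast; ring

theorem add_right (hf : LB f a) (g : ℕ → ℕ) : LB (fun L => f L + g L) a :=
  of_le' (fun _ => Nat.le_add_right _ _) hf

theorem add_left (g : ℕ → ℕ) (hf : LB f a) : LB (fun L => g L + f L) a :=
  of_le' (fun _ => Nat.le_add_left _ _) hf

theorem const_mul {c : ℕ} (hc : 0 < c) (hf : LB f a) : LB (fun L => c * f L) a :=
  of_le' (fun _ => Nat.le_mul_of_pos_left _ hc) hf

end LB

namespace SO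

variable {f g : ℕ → ℕ} {a b : ℝ}

/-- comparison of an upper and a lower bound -/
theorem eventually_le_lb (hf : SO f a) (hg : LB g b) (hab : a < b) :
    ∀ᶠ L : ℕ in atTop, f L ≤ g L := by
  filter_upwards [hf.eventually_le_rpow (b := (a + b) / 2) (by linarith),
    hg ((b - a) / 2) (by linarith)] with L h1 h2
  rw [show b - (b - a) / 2 = (a + b) / 2 by ring] at h2
  exact_mod_cast h1.trans h2

theorem eventually_lt_lb (hf : SO f a) (hg : LB g b) (hab : a < b) (hb : 0 < b) :
    ∀ᶠ L : ℕ in atTop, f L < g L := by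
  have h1 : SO (fun L => f L + 1) (Max.max a 0) :=
    (hf.mono (le_max_left _ _)).add_const (le_max_right _ _) 1
  filter_upwards [h1.eventually_le_lb hg (max_lt hab hb)] with L h
  omega

/-- anything polynomial is eventually below `2 ^ g` when `g` grows like a power -/
theorem eventually_lt_two_pow_lb (hf : SO f a) (hg : LB g b) (hb : 0 < b) :
    ∀ᶠ L : ℕ in atTop, f L < 2 ^ g L := by
  filter_upwards [hf.size.eventually_le_lb hg hb] with L h
  exact Nat.size_le.1 h

theorem eventually_le_two_pow_lb (hf : SO f a) (hg : LB g b) (hb : 0 < b) :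
    ∀ᶠ L : ℕ in atTop, f L ≤ 2 ^ g L :=
  (hf.eventually_lt_two_pow_lb hg hb).mono fun _ h => h.le

/-- quotient of an upper by a lower bound -/
theorem div_lb (hf : SO f a) (hg : LB g b) : SO (fun L => f L / g L) (a - b) := by
  intro δ hδ
  obtain ⟨C, hC, h⟩ := hf (δ / 2) (by linarith)
  refine ⟨C, hC, ?_⟩
  filter_upwards [h, hg (δ / 2) (by linarith), eventually_ge_atTop 1] with L h1 h2 h3
  have h4 : (0 : ℝ) < L := by exact_mod_cast h3
  have h5 : (0 : ℝ) < (L : ℝ) ^ (b - δ / 2) := Real.rpow_pos_of_pos h4 _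
  have e : (L : ℝ) ^ (a - b + δ) = (L : ℝ) ^ (a + δ / 2) / (L : ℝ) ^ (b - δ / 2) := by
    rw [← Real.rpow_sub h4]; congr 1; ring
  calc ((f L / g L : ℕ) : ℝ) ≤ (f L : ℝ) / g L := Nat.cast_div_le
    _ ≤ (C * (L : ℝ) ^ (a + δ / 2)) / (L : ℝ) ^ (b - δ / 2) :=
        div_le_div₀ (by positivity) h1 h5 h2
    _ = _ := by rw [e]; ring

/-- if `f * g ≤ h` and `g` is bounded below then `f` is bounded above -/
theorem of_mul_le {h : ℕ → ℕ} (hh : SO h a) (hg : LB g b) (hle : ∀ᶠ L in atTop, f L * g L ≤ h L) :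
    SO f (a - b) := by
  refine of_le ?_ (hh.div_lb hg)
  filter_upwards [hle, hg.eventually_pos] with L h1 h2
  exact (Nat.le_div_iff_mul_le h2).2 h1

end SO

namespace LB

variable {f g : ℕ → ℕ} {a b : ℝ}

/-- if `h ≤ f * g` and `g` is bounded above then `f` is bounded below -/
theorem of_le_mul {h : ℕ → ℕ} (hh : LB h a) (hg : SO g b) (hle : ∀ᶠ L in atTop, h L ≤ f L * g L) :
    LB f (a - b) := by
  intro δ hδ
  filter_upwards [hh (δ / 2) (by linarith), hg.eventually_le_rpow (b := b + δ / 2) (by linarith),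
    hle, eventually_ge_atTop 1] with L h1 h2 h3 h4
  have h5 : (0 : ℝ) < L := by exact_mod_cast h4
  have h6 : (0 : ℝ) < (L : ℝ) ^ (b + δ / 2) := Real.rpow_pos_of_pos h5 _
  have e : (L : ℝ) ^ (a - b - δ) = (L : ℝ) ^ (a - δ / 2) / (L : ℝ) ^ (b + δ / 2) := by
    rw [← Real.rpow_sub h5]; congr 1; ring
  rw [e, div_le_iff₀ h6]
  have h7 : (h L : ℝ) ≤ f L * g L := by exact_mod_cast h3
  exact h1.trans (h7.trans (mul_le_mul_of_nonneg_left h2 (Nat.cast_nonneg _)))

theorem sub (hf : LB f a) (hg : SO g b) (hab : b < a) : LB (fun L => f L - g L) a := by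
  have h1 := (hg.const_mul 2).eventually_le_lb hf hab
  have := hf.of_le_mul (f := fun L => f L - g L) (SO.const 2)
    (by filter_upwards [h1] with L h; omega)
  simpa using this

theorem div (hf : LB f a) (hg : SO g b) (hab : b < a) (hpos : ∀ᶠ L in atTop, 0 < g L) :
    LB (fun L => f L / g L) (a - b) := by
  have h1 := hg.eventually_le_lb hf hab
  refine hf.of_le_mul (g := fun L => 2 * g L) (hg.const_mul 2) ?_
  filter_upwards [h1, hpos] with L h2 h3
  have h4 : 0 < f L / g L := Nat.div_pos h2 h3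
  have h5 := Nat.lt_div_mul_add (a := f L) h3
  nlinarith

theorem div_const (hf : LB f a) (ha : 0 < a) {c : ℕ} (hc : 0 < c) : LB (fun L => f L / c) a := by
  simpa using hf.div (SO.const c) ha (Eventually.of_forall fun _ => hc)

theorem eventually_ge (hf : LB f a) (ha : 0 < a) (c : ℕ) : ∀ᶠ L in atTop, c ≤ f L :=
  (SO.const c).eventually_le_lb hf ha

theorem pw (hf : LB f a) {τ : ℝ} (hτ : 0 ≤ τ) : LB (fun L => X326.pw τ (f L)) (τ * a) := by
  intro δ hδ
  filter_upwards [hf (δ / (τ + 1)) (by positivity), eventually_ge_atTop 1] with L h1 h3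
  have h4 : (1 : ℝ) ≤ L := by exact_mod_cast h3
  refine le_trans ?_ (le_pw τ (f L))
  calc (L : ℝ) ^ (τ * a - δ) ≤ (L : ℝ) ^ ((a - δ / (τ + 1)) * τ) := by
        refine Real.rpow_le_rpow_of_exponent_le h4 ?_
        have : δ / (τ + 1) * τ ≤ δ := by
          rw [div_mul_eq_mul_div, div_le_iff₀ (by linarith)]
          nlinarith
        nlinarith
    _ = ((L : ℝ) ^ (a - δ / (τ + 1))) ^ τ := Real.rpow_mul (by linarith) _ _
    _ ≤ _ := Real.rpow_le_rpow (by positivity) h1 hτ

end LB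

/-- `2 ^ (log₂ L / E)`, a power of two of exact order `L ^ (1 / E)` -/
def ex (E L : ℕ) : ℕ := 2 ^ (Nat.log 2 L / E)

theorem ex_pos (E L : ℕ) : 0 < ex E L := by unfold ex; positivity

theorem ex_pow_le (E : ℕ) {L : ℕ} (hL : L ≠ 0) : ex E L ^ E ≤ L := by
  unfold ex
  rw [← pow_mul]
  exact (Nat.pow_le_pow_right (by norm_num) (Nat.div_mul_le_self _ _)).trans
    (Nat.pow_log_le_self 2 hL)

theorem lt_ex_pow {E : ℕ} (hE : 0 < E) (L : ℕ) : L < (2 * ex E L) ^ E := by
  unfold ex
  rw [← pow_succ', ← pow_mul]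
  refine (Nat.lt_pow_succ_log_self (b := 2) (by norm_num) L).trans_le
    (Nat.pow_le_pow_right (by norm_num) ?_)
  have := Nat.lt_div_mul_add (a := Nat.log 2 L) hE
  rw [add_mul]; omega

theorem so_ex {E : ℕ} (hE : 0 < E) : SO (ex E) (1 / E) := by
  refine SO.of_bound 1 ?_
  filter_upwards [eventually_ge_atTop 1] with L hL
  have h1 : ((ex E L : ℝ)) ^ E ≤ L := by exact_mod_cast ex_pow_le E (by omega)
  have h2 := Real.rpow_le_rpow (by positivity) h1 (show (0 : ℝ) ≤ 1 / E by positivity)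
  rw [← Real.rpow_natCast, ← Real.rpow_mul (Nat.cast_nonneg _),
    mul_one_div_cancel (by exact_mod_cast hE.ne'), Real.rpow_one] at h2
  simpa using h2

theorem lb_ex {E : ℕ} (hE : 0 < E) : LB (ex E) (1 / E) := by
  refine LB.of_bound 2 (Eventually.of_forall fun L => ?_)
  have h1 : (L : ℝ) ≤ (2 * (ex E L : ℝ)) ^ E := by exact_mod_cast (lt_ex_pow hE L).le
  have h2 := Real.rpow_le_rpow (Nat.cast_nonneg _) h1 (show (0 : ℝ) ≤ 1 / E by positivity)
  rwa [← Real.rpow_natCast, ← Real.rpow_mul (by positivity),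
    mul_one_div_cancel (by exact_mod_cast hE.ne'), Real.rpow_one] at h2

theorem so_ex_pow {E : ℕ} (hE : 0 < E) (D : ℕ) : SO (fun L => ex E L ^ D) (D / E) := by
  simpa [div_eq_mul_inv] using (so_ex hE).pow D

theorem lb_ex_pow {E : ℕ} (hE : 0 < E) (D : ℕ) : LB (fun L => ex E L ^ D) (D / E) := by
  simpa [div_eq_mul_inv] using (lb_ex hE).pow D

end Crest.Agent.X326
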