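import Crest.Agent.X326.Top.Bridge

/-!
# The parameters of the fast multiplier (row 326)

All parameters are explicit functions of `L = size n` (`n` = operand length in bits).

* `ff L = (2^18) ^ jj L` axes handled by part B, `dd = ff + 3` axes, `ee = ff + 1` (`dd = ee + 2`);
* `tt = 2 ^ kk` axis length, `rr = 2 ^ rho` record length, `tt ^ dd * rr = 2 ^ Lp`;
* digits have `L` bits, a record holds `rr / 2` digits;
* filter bank: `nu`, `gam`, `QQ = gam * (nu - 1)`, `nn`, `dl`, `BB = 2 ^ beta`, precision `pp`;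
* `NN = tt * QQ ^ (ee + 1)` records in the one-dimensional cyclic convolution.
-/

set_option autoImplicit false

namespace Crest.Agent.X326.Par

open Filter

/-- recursion depth of part B -/
def jj (L : ℕ) : ℕ := Nat.log 2 L / 576
/-- number of axes handled by part B -/
def ff (L : ℕ) : ℕ := (2 ^ 18) ^ jj L
/-- number of axes -/
def dd (L : ℕ) : ℕ := ff L + 3
/-- `ee + 1` filter bank levels -/
def ee (L : ℕ) : ℕ := ff L + 1
/-- `2 ^ Lp` coefficients in the grid -/
def Lp (L : ℕ) : ℕ := L + 3 - Nat.log 2 L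
/-- bits per axis -/
def kk (L : ℕ) : ℕ := Lp L / (dd L + 1)
/-- axis length -/
def tt (L : ℕ) : ℕ := 2 ^ kk L
/-- logarithm of the record length -/
def rho (L : ℕ) : ℕ := Lp L - dd L * kk L
/-- record length -/
def rr (L : ℕ) : ℕ := 2 ^ rho L
/-- oversampling parameter -/
def nu (L : ℕ) : ℕ := 4 * ff L
/-- `tt = gam * nu` -/
def gam (L : ℕ) : ℕ := tt L / nu L
/-- decimation step -/
def QQ (L : ℕ) : ℕ := gam L * (nu L - 1)
/-- fixed point precision of the taps -/
def pp (L : ℕ) : ℕ := 32 * L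
/-- order of the half-band filter -/
def nn (L : ℕ) : ℕ := 4 * nu L ^ 2 * pp L
/-- half-length of the analysis filter -/
def dl (L : ℕ) : ℕ := (2 * nn L + 1) * tt L
/-- error constant of the integer taps -/
def cc (L : ℕ) : ℕ := kk L * 4 ^ kk L + (2 * dl L + 1) * (2 * 2 ^ kk L + 1) + 1
/-- logarithm of the block length of the banded products -/
def beta (L : ℕ) : ℕ := Nat.size (nu L * (8 * nn L + 5))
/-- block length of the banded products -/
def BB (L : ℕ) : ℕ := 2 ^ beta L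
/-- number of records of the one-dimensional convolution -/
def NN (L : ℕ) : ℕ := tt L * QQ L ^ (ee L + 1)
/-- bound for the `ℓ¹` norm of the digit arrays -/
def AA (L : ℕ) : ℕ := NN L * rr L * 2 ^ L
/-- bits of the modulus -/
def PP (L : ℕ) : ℕ := 128 * L

/-! ### identities valid for every `L` -/

theorem dd_eq (L : ℕ) : dd L = ee L + 2 := rfl

theorem ff_eq_ex (L : ℕ) : ff L = ex 576 L ^ 18 := by
  unfold ff ex jj
  rw [← pow_mul, ← pow_mul, mul_comm]

theorem ff_eq_two_pow (L : ℕ) : ff L = 2 ^ (18 * jj L) := by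
  unfold ff; rw [← pow_mul]

theorem ff_pos (L : ℕ) : 0 < ff L := by unfold ff; positivity
theorem tt_pos (L : ℕ) : 0 < tt L := by unfold tt; positivity
theorem rr_pos (L : ℕ) : 0 < rr L := by unfold rr; positivity
theorem BB_pos (L : ℕ) : 0 < BB L := by unfold BB; positivity
theorem nu_pos (L : ℕ) : 0 < nu L := by have := ff_pos L; unfold nu; omega
theorem four_le_nu (L : ℕ) : 4 ≤ nu L := by have := ff_pos L; unfold nu; omega

theorem nu_eq_two_pow (L : ℕ) : nu L = 2 ^ (18 * jj L + 2) := by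
  unfold nu; rw [ff_eq_two_pow, pow_add]; ring

theorem succ_dd_mul_kk_le (L : ℕ) : (dd L + 1) * kk L ≤ Lp L := Nat.mul_div_le _ _

theorem dd_mul_kk_add_rho (L : ℕ) : dd L * kk L + rho L = Lp L := by
  have := succ_dd_mul_kk_le L
  unfold rho
  rw [add_mul] at this
  omega

theorem kk_le_rho (L : ℕ) : kk L ≤ rho L := by
  have := succ_dd_mul_kk_le L
  have h := dd_mul_kk_add_rho L
  rw [add_mul] at this
  omega

theorem rho_le (L : ℕ) : rho L ≤ kk L + dd L := by
  have h := dd_mul_kk_add_rho L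
  have h2 : Lp L < kk L * (dd L + 1) + (dd L + 1) := Nat.lt_div_mul_add (Nat.succ_pos _)
  rw [mul_add, mul_comm (kk L)] at h2
  omega

theorem tt_pow_mul_rr (L : ℕ) : tt L ^ dd L * rr L = 2 ^ Lp L := by
  unfold tt rr
  rw [← pow_mul, ← pow_add, mul_comm (kk L), dd_mul_kk_add_rho]

theorem tt_dvd_rr (L : ℕ) : tt L ∣ rr L := pow_dvd_pow 2 (kk_le_rho L)

theorem tt_le_rr (L : ℕ) : tt L ≤ rr L := Nat.le_of_dvd (rr_pos L) (tt_dvd_rr L)

theorem QQ_le_tt (L : ℕ) : QQ L ≤ tt L :=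
  (Nat.mul_le_mul_left _ (Nat.sub_le _ _)).trans (Nat.div_mul_le_self _ _)

theorem NN_le (L : ℕ) : NN L ≤ tt L ^ dd L := by
  unfold NN
  rw [dd_eq, pow_succ' (tt L) (ee L + 1)]
  exact Nat.mul_le_mul_left _ (Nat.pow_le_pow_left (QQ_le_tt L) _)

theorem nu_mul_lt_BB (L : ℕ) : nu L * (8 * nn L + 5) < BB L := Nat.lt_size_self _

theorem Lp_le {L : ℕ} (hL : 8 ≤ L) : Lp L ≤ L := by
  have : 3 ≤ Nat.log 2 L := (Nat.le_log_iff_pow_le (by norm_num) (by omega)).2 (by omega)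
  unfold Lp; omega

theorem log_add_Lp (L : ℕ) : Nat.log 2 L + Lp L = L + 3 := by
  have : Nat.log 2 L ≤ L := Nat.log_le_self 2 L
  unfold Lp; omega

/-- the volume: `2 ^ Lp` coefficients of `O(L)` bits -/
theorem two_pow_Lp_mul_le (L : ℕ) : 2 ^ Lp L * L ≤ 16 * 2 ^ L := by
  have h1 : L ≤ 2 ^ (Nat.log 2 L + 1) := (Nat.lt_pow_succ_log_self (by norm_num) L).le
  calc 2 ^ Lp L * L ≤ 2 ^ Lp L * 2 ^ (Nat.log 2 L + 1) := Nat.mul_le_mul_left _ h1
    _ = 2 ^ (Nat.log 2 L + Lp L + 1) := by rw [← pow_add]; congr 1; ring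
    _ = 16 * 2 ^ L := by rw [log_add_Lp]; ring

theorem le_two_pow_Lp_mul {L : ℕ} (hL : L ≠ 0) : 8 * 2 ^ L ≤ 2 ^ Lp L * L := by
  have h1 : 2 ^ Nat.log 2 L ≤ L := Nat.pow_log_le_self 2 hL
  calc 8 * 2 ^ L = 2 ^ (Nat.log 2 L + Lp L) := by rw [log_add_Lp]; ring
    _ = 2 ^ Lp L * 2 ^ Nat.log 2 L := by rw [pow_add, mul_comm]
    _ ≤ _ := Nat.mul_le_mul_left _ h1

/-! ### orders of magnitude -/

theorem so_ff : SO ff (1 / 32) := by
  have := so_ex_pow (E := 576) (by norm_num) 18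
  refine (SO.of_le' (fun L => (ff_eq_ex L).le) this).mono (by norm_num)

theorem lb_ff : LB ff (1 / 32) := by
  have := lb_ex_pow (E := 576) (by norm_num) 18
  refine (LB.of_le' (fun L => (ff_eq_ex L).ge) this).mono (by norm_num)

theorem so_jj : SO jj 0 := (SO.id.log 2).div _
theorem so_dd : SO dd (1 / 32) := so_ff.add_const (by norm_num) 3
theorem lb_dd : LB dd (1 / 32) := lb_ff.add_right _
theorem so_ee : SO ee (1 / 32) := so_ff.add_const (by norm_num) 1
theorem lb_ee : LB ee (1 / 32) := lb_ff.add_right _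
theorem so_nu : SO nu (1 / 32) := so_ff.const_mul 4
theorem lb_nu : LB nu (1 / 32) := lb_ff.const_mul (by norm_num)
theorem so_Lp : SO Lp 1 := (SO.id.add_const zero_le_one 3).sub _
theorem lb_Lp : LB Lp 1 := (LB.id.add_right fun _ => 3).sub (SO.id.log 2) one_pos

theorem so_kk : SO kk (31 / 32) :=
  (so_Lp.div_lb (lb_dd.add_right fun _ => 1)).mono (by norm_num)

theorem lb_kk : LB kk (31 / 32) :=
  (lb_Lp.div (so_dd.add_const (by norm_num) 1) (by norm_num)
    (Eventually.of_forall fun _ => Nat.succ_pos _)).mono (by norm_num)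

theorem so_rho : SO rho (31 / 32) :=
  SO.of_le' rho_le (so_kk.add (so_dd.mono (by norm_num)))

theorem lb_rho : LB rho (31 / 32) := LB.of_le' kk_le_rho lb_kk

theorem so_pp : SO pp 1 := SO.id.const_mul 32
theorem lb_pp : LB pp 1 := LB.id.const_mul (by norm_num)
theorem so_PP : SO PP 1 := SO.id.const_mul 128
theorem lb_PP : LB PP 1 := LB.id.const_mul (by norm_num)

theorem so_nn : SO nn (17 / 16) :=
  (((so_nu.pow 2).const_mul 4).mul so_pp).mono (by norm_num)

theorem so_BB : SO BB (35 / 32) :=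
  ((so_nu.mul ((so_nn.const_mul 8).add_const (by norm_num) 5)).two_pow_size
    (by norm_num)).mono (by norm_num)

theorem so_beta : SO beta 0 := (so_nu.mul ((so_nn.const_mul 8).add_const (by norm_num) 5)).size

theorem so_size_tt : SO (fun L => Nat.size (tt L)) (31 / 32) :=
  SO.size_of_le_two_pow (g := kk) (Eventually.of_forall fun _ => le_rfl) so_kk (by norm_num)

theorem so_size_rr : SO (fun L => Nat.size (rr L)) (31 / 32) :=
  SO.size_of_le_two_pow (g := rho) (Eventually.of_forall fun _ => le_rfl) so_rho (by norm_num)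

/-! ### absorption principles -/

/-- every polynomial quantity is eventually below the axis length -/
theorem _root_.Crest.Agent.X326.SO.le_tt {f : ℕ → ℕ} {a : ℝ} (hf : SO f a) :
    ∀ᶠ L in atTop, f L ≤ tt L := hf.eventually_le_two_pow_lb lb_kk (by norm_num)

theorem _root_.Crest.Agent.X326.SO.lt_tt {f : ℕ → ℕ} {a : ℝ} (hf : SO f a) :
    ∀ᶠ L in atTop, f L < tt L := hf.eventually_lt_two_pow_lb lb_kk (by norm_num)

/-- every polynomial quantity is eventually below the record length -/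
theorem _root_.Crest.Agent.X326.SO.le_rr {f : ℕ → ℕ} {a : ℝ} (hf : SO f a) :
    ∀ᶠ L in atTop, f L ≤ rr L := hf.eventually_le_two_pow_lb lb_rho (by norm_num)

/-- every quantity with `o(L)` bits is eventually below `2 ^ L` -/
theorem _root_.Crest.Agent.X326.SO.le_two_pow_of_size {f : ℕ → ℕ} {a : ℝ}
    (hf : SO (fun L => Nat.size (f L)) a) (ha : a < 1) : ∀ᶠ L in atTop, f L ≤ 2 ^ L := by
  filter_upwards [hf.eventually_le_self ha] with L h
  exact (Nat.size_le.1 h).le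

theorem _root_.Crest.Agent.X326.SO.size_pow {f : ℕ → ℕ} {a : ℝ}
    (hf : SO (fun L => Nat.size (f L)) a) (ha : 0 ≤ a) (c : ℕ) :
    SO (fun L => Nat.size (f L ^ c)) a := by
  induction c with
  | zero => simpa using (SO.const 1).mono ha
  | succ c ih => simpa only [pow_succ] using ih.size_mul hf

theorem _root_.Crest.Agent.X326.SO.size_add {f g : ℕ → ℕ} {a : ℝ}
    (hf : SO (fun L => Nat.size (f L)) a) (hg : SO (fun L => Nat.size (g L)) a) (ha : 0 ≤ a) :
    SO (fun L => Nat.size (f L + g L)) a := by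
  refine SO.of_le' (fun L => ?_) ((hf.add hg).add_const ha 1)
  refine Nat.size_le.2 ?_
  have h1 := Nat.lt_size_self (f L)
  have h2 := Nat.lt_size_self (g L)
  have h3 : 2 ^ Nat.size (f L) ≤ 2 ^ (Nat.size (f L) + Nat.size (g L)) :=
    Nat.pow_le_pow_right (by norm_num) (by omega)
  have h4 : 2 ^ Nat.size (g L) ≤ 2 ^ (Nat.size (f L) + Nat.size (g L)) :=
    Nat.pow_le_pow_right (by norm_num) (by omega)
  rw [pow_succ]; omega

/-- tables of size polynomial in `rr` (hence in `tt`) and `L` are within the volume -/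
theorem sv_poly_rr {f : ℕ → ℕ} {a : ℝ} (hf : SO f a) (c : ℕ) :
    SV (fun L => (rr L * f L + 1) ^ c) 0 := by
  refine SV.of_le_two_pow (SO.le_two_pow_of_size (a := 31 / 32) ?_ (by norm_num))
  refine SO.size_pow (SO.size_add (so_size_rr.size_mul (hf.size.mono (by norm_num)))
    ((SO.const 1).size.mono (by norm_num)) (by norm_num)) (by norm_num) c

theorem sv_poly_tt {f : ℕ → ℕ} {a : ℝ} (hf : SO f a) (c : ℕ) :
    SV (fun L => (tt L * f L + 1) ^ c) 0 :=
  SV.of_le' (fun L => Nat.pow_le_pow_left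
    (Nat.add_le_add_right (Nat.mul_le_mul_right _ (tt_le_rr L)) 1) c) (sv_poly_rr hf c)

/-- the volume unit: number of coefficients times `L` -/
theorem sv_vol : SV (fun L => 2 ^ Lp L * L) 0 :=
  SV.of_le' two_pow_Lp_mul_le (SV.two_pow.const_mul 16)

/-- the number of coefficients has exponent `-1` -/
theorem sv_coeffs_mul {f : ℕ → ℕ} {a : ℝ} (hf : SO f (a + 1)) (ha : 0 ≤ a) :
    SV (fun L => 2 ^ Lp L * f L) a := by
  have h1 : SO (fun L => f L / L + 1) a := by
    have := (hf.div_lb LB.id)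
    rw [add_sub_cancel_right] at this
    exact this.add_const ha 1
  refine SV.of_le ?_ ((sv_vol.mul_so h1).mono (by simp))
  filter_upwards [eventually_gt_atTop 0] with L hL
  rw [mul_assoc]
  refine Nat.mul_le_mul_left _ ?_
  have := Nat.lt_div_mul_add (a := f L) hL
  nlinarith

/-- volume `tt ^ dd * rr * (O(L) bits)` times a factor -/
theorem sv_grid_mul {f : ℕ → ℕ} {a : ℝ} (hf : SO f (a + 1)) (ha : 0 ≤ a) :
    SV (fun L => tt L ^ dd L * rr L * f L) a := by
  simpa only [tt_pow_mul_rr] using sv_coeffs_mul hf ha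

/-- per-record polynomial work is within the volume -/
theorem sv_records_mul {f : ℕ → ℕ} {a : ℝ} (hf : SO f a) :
    SV (fun L => tt L ^ dd L * f L) 0 := by
  refine SV.of_le ?_ (sv_grid_mul (f := fun _ => 1) (a := 0) ((SO.const 1).mono (by norm_num))
    le_rfl)
  filter_upwards [hf.le_rr] with L h
  rw [mul_one]
  exact Nat.mul_le_mul_left _ h

/-! ### eventual side conditions -/

theorem ev_ff_ge (c : ℕ) : ∀ᶠ L in atTop, c ≤ ff L := lb_ff.eventually_ge (by norm_num) c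

theorem ev_kk_ge (c : ℕ) : ∀ᶠ L in atTop, c ≤ kk L := lb_kk.eventually_ge (by norm_num) c

theorem pow_dvd_tt_of_le {a L : ℕ} (h : 2 ^ a ≤ tt L) : 2 ^ a ∣ tt L :=
  pow_dvd_pow 2 ((Nat.pow_le_pow_iff_right (by norm_num)).1 h)

theorem pow_dvd_rr_of_le {a L : ℕ} (h : 2 ^ a ≤ rr L) : 2 ^ a ∣ rr L :=
  pow_dvd_pow 2 ((Nat.pow_le_pow_iff_right (by norm_num)).1 h)

theorem ev_two_nu_dvd : ∀ᶠ L in atTop, 2 * nu L ∣ tt L := by
  filter_upwards [(so_nu.const_mul 2).le_tt] with L h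
  rw [nu_eq_two_pow, ← pow_succ'] at h ⊢
  exact pow_dvd_tt_of_le h

theorem ev_gam_mul_nu : ∀ᶠ L in atTop, gam L * nu L = tt L := by
  filter_upwards [ev_two_nu_dvd] with L h
  exact Nat.div_mul_cancel (Dvd.dvd.trans (Dvd.intro_left 2 rfl) h)

theorem ev_two_dvd_gam : ∀ᶠ L in atTop, 2 ∣ gam L := by
  filter_upwards [ev_two_nu_dvd] with L h
  obtain ⟨c, hc⟩ := h
  refine ⟨c, ?_⟩
  unfold gam
  rw [hc, show 2 * nu L * c = nu L * (2 * c) by ring, Nat.mul_div_cancel_left _ (nu_pos L)]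

theorem ev_gam_pos : ∀ᶠ L in atTop, 0 < gam L := by
  filter_upwards [ev_gam_mul_nu] with L h
  have := tt_pos L
  rw [← h] at this
  exact Nat.pos_of_mul_pos_right this

theorem ev_two_mul_half_QQ : ∀ᶠ L in atTop, 2 * (QQ L / 2) = QQ L := by
  filter_upwards [ev_two_dvd_gam] with L h
  exact Nat.mul_div_cancel' (Dvd.dvd.mul_right h _)

theorem ev_QQ_mul_nu : ∀ᶠ L in atTop, QQ L * nu L = tt L * (nu L - 1) := by
  filter_upwards [ev_gam_mul_nu] with L h
  rw [← h]; unfold QQ; ring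

theorem ev_tt_le_two_QQ : ∀ᶠ L in atTop, tt L ≤ 2 * QQ L := by
  filter_upwards [ev_gam_mul_nu] with L h
  have := four_le_nu L
  rw [← h]; unfold QQ
  rw [← mul_assoc, mul_comm 2, mul_assoc]
  exact Nat.mul_le_mul_left _ (by omega)

theorem ev_QQ_pos : ∀ᶠ L in atTop, 0 < QQ L := by
  filter_upwards [ev_tt_le_two_QQ] with L h
  have := tt_pos L
  omega

/-- every polynomial quantity is eventually below `QQ` -/
theorem _root_.Crest.Agent.X326.SO.lt_QQ {f : ℕ → ℕ} {a : ℝ} (hf : SO f a) :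
    ∀ᶠ L in atTop, f L < QQ L := by
  filter_upwards [(hf.const_mul 2).lt_tt, ev_tt_le_two_QQ] with L h1 h2
  omega

theorem ev_BB_dvd : ∀ᶠ L in atTop, BB L ∣ tt L := by
  filter_upwards [so_BB.le_tt] with L h
  exact pow_dvd_tt_of_le h

theorem ev_dl_BB : ∀ᶠ L in atTop, 4 * dl L + tt L ≤ gam L * BB L := by
  filter_upwards [ev_gam_mul_nu] with L h
  have h1 := (nu_mul_lt_BB L).le
  unfold dl
  rw [← h]
  calc 4 * ((2 * nn L + 1) * (gam L * nu L)) + gam L * nu L
      = gam L * (nu L * (8 * nn L + 5)) := by ring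
    _ ≤ _ := Nat.mul_le_mul_left _ h1

theorem ev_six_dl_lt : ∀ᶠ L in atTop, 6 * dl L < tt L * QQ L := by
  filter_upwards [(((so_nn.const_mul 2).add_const (by norm_num) 1).const_mul 6).lt_QQ] with L h
  unfold dl
  rw [← mul_assoc, mul_comm (tt L)]
  exact Nat.mul_lt_mul_of_pos_right h (tt_pos L)

/-- Bernoulli: `ν ^ m ≤ 2 (ν - 1) ^ m` when `2 m ≤ ν` -/
theorem pow_le_two_mul_pred_pow {ν m : ℕ} (h : 2 * m ≤ ν) : ν ^ m ≤ 2 * (ν - 1) ^ m := by
  rcases Nat.eq_zero_or_pos ν with rfl | hν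
  · have : m = 0 := by omega
    subst this; simp
  have hν' : (0 : ℝ) < ν := by exact_mod_cast hν
  have h1 : (1 : ℝ) + (m : ℝ) * (-(1 / (ν : ℝ))) ≤ (1 + -(1 / (ν : ℝ))) ^ m := by
    refine one_add_mul_le_pow ?_ m
    have : (1 : ℝ) / ν ≤ 1 := by rw [div_le_one hν']; exact_mod_cast hν
    linarith
  have h2 : (m : ℝ) * (1 / (ν : ℝ)) ≤ 1 / 2 := by
    rw [mul_one_div, div_le_div_iff₀ hν' (by norm_num)]
    have : ((2 * m : ℕ) : ℝ) ≤ ν := by exact_mod_cast h
    push_cast at this; linarith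
  have h3 : (1 + -(1 / (ν : ℝ))) ^ m * (ν : ℝ) ^ m = ((ν - 1 : ℕ) : ℝ) ^ m := by
    rw [← mul_pow, Nat.cast_sub hν]
    congr 1
    field_simp
    push_cast; ring
  have h4 : (ν : ℝ) ^ m ≤ 2 * ((ν - 1 : ℕ) : ℝ) ^ m := by
    rw [← h3]
    have : (0 : ℝ) < (ν : ℝ) ^ m := by positivity
    nlinarith
  exact_mod_cast h4

theorem ev_tt_pow_le_two_NN : ∀ᶠ L in atTop, tt L ^ dd L ≤ 2 * NN L := by
  filter_upwards [ev_gam_mul_nu, ev_ff_ge 2] with L h hf
  have h1 : nu L ^ (ee L + 1) ≤ 2 * (nu L - 1) ^ (ee L + 1) :=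
    pow_le_two_mul_pred_pow (by unfold nu ee; omega)
  have h2 : tt L ^ (ee L + 1) ≤ 2 * QQ L ^ (ee L + 1) := by
    rw [← h]; unfold QQ
    rw [mul_pow, mul_pow, ← mul_assoc, mul_comm 2, mul_assoc]
    exact Nat.mul_le_mul_left _ h1
  unfold NN
  rw [dd_eq, pow_succ' (tt L) (ee L + 1), ← mul_assoc, mul_comm 2, mul_assoc]
  exact Nat.mul_le_mul_left _ h2

theorem ev_two_dvd_tt : ∀ᶠ L in atTop, 2 ∣ tt L := by
  filter_upwards [ev_two_nu_dvd] with L h
  exact Dvd.dvd.trans (Dvd.intro _ rfl) h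

theorem ev_two_dvd_rr : ∀ᶠ L in atTop, 2 ∣ rr L := by
  filter_upwards [ev_two_dvd_tt] with L h
  exact h.trans (tt_dvd_rr L)

theorem ev_two_dvd_NN : ∀ᶠ L in atTop, 2 ∣ NN L := by
  filter_upwards [ev_two_dvd_tt] with L h
  exact Dvd.dvd.mul_right h _

/-- capacity: half of the records hold `2 ^ L` bits -/
theorem ev_capacity : ∀ᶠ L in atTop, 2 ^ L ≤ L * (rr L / 2) * (NN L / 2) := by
  filter_upwards [ev_tt_pow_le_two_NN, ev_two_dvd_rr, ev_two_dvd_NN, eventually_gt_atTop 0]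
    with L h1 h2 h3 hL
  obtain ⟨r, hr⟩ := h2
  obtain ⟨N, hN⟩ := h3
  have h4 := le_two_pow_Lp_mul hL.ne'
  rw [← tt_pow_mul_rr] at h4
  have h5 : tt L ^ dd L * rr L * L ≤ 2 * NN L * rr L * L :=
    Nat.mul_le_mul_right _ (Nat.mul_le_mul_right _ h1)
  rw [hr, hN] at *
  rw [Nat.mul_div_cancel_left _ (by norm_num), Nat.mul_div_cancel_left _ (by norm_num)]
  nlinarith

theorem ev_grid_le : ∀ᶠ L in atTop, tt L ^ dd L * rr L ≤ 2 ^ L := by
  filter_upwards [eventually_ge_atTop 8] with L h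
  rw [tt_pow_mul_rr]
  exact Nat.pow_le_pow_right (by norm_num) (Lp_le h)

theorem ev_tt_pow_le : ∀ᶠ L in atTop, tt L ^ dd L ≤ 2 ^ L := by
  filter_upwards [ev_grid_le] with L h
  exact (Nat.le_mul_of_pos_right _ (rr_pos L)).trans h

theorem ev_NN_mul_rr_le : ∀ᶠ L in atTop, NN L * rr L ≤ 2 ^ L := by
  filter_upwards [ev_grid_le] with L h
  exact (Nat.mul_le_mul_right _ (NN_le L)).trans h

end Crest.Agent.X326.Par
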