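import Crest.Agent.X326.Top.Budget
import Crest.Agent.X326.FB.PolyAllDefs
import Crest.Agent.X326.FB.TabPT

/-!
# The filter bank at the chosen parameters: side conditions, tables, cost (row 326)
-/

set_option autoImplicit false

namespace Crest.Agent.X326.Par

open Filter Crest.Agent.Lib.PT

/-- width of the taps -/
def wt (L : ℕ) : ℕ := pp L + kk L + 1

theorem so_wt : SO wt 1 := (so_pp.add (so_kk.mono (by norm_num))).add_const zero_le_one 1

theorem pp_le_wt (L : ℕ) : pp L ≤ wt L := by unfold wt; omega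

theorem two_pow_pp_mul_tt_lt (L : ℕ) : (2 : ℤ) ^ pp L * (tt L : ℕ) < 2 ^ wt L := by
  unfold wt tt
  push_cast
  rw [← pow_add]
  exact pow_lt_pow_right₀ (by norm_num) (Nat.lt_succ_self _)

theorem sv_bankCost {μ : ℕ → ℕ → ℕ} (hμ : MuOk μ) {w : ℕ → ℕ} (hw : SO w 1) :
    SV (fun L => FB.bankCost μ (tt L) (nu L) (beta L) (rr L) (ee L) (w L) (wt L)) (3 / 32) := by
  have he : SO (fun L => ee L + 1) (1 / 32) := so_ee.add_const (by norm_num) 1
  have h1 : SO (fun L => w L + (ee L + 1) * (wt L + beta L)) (1 / 32 + 1) :=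
    (hw.mono (by norm_num)).add (he.mul (so_wt.add (so_beta.mono zero_le_one)))
  exact (sv_mul_bandCost hμ h1 (by norm_num) he).mono (by norm_num)

theorem three_div_lt_aT : (3 : ℝ) / 32 < aT := lt_aT (by norm_num)

theorem ev_bankOk : ∀ᶠ L in atTop,
    FB.BankOk (tt L) (QQ L) (gam L) (nu L) (beta L) (dl L) (rr L) := by
  filter_upwards [ev_gam_mul_nu, ev_gam_pos, ev_BB_dvd, ev_dl_BB] with L h1 h2 h3 h4
  exact ⟨h1.symm, rfl, h2, (by norm_num : 2 ≤ 4).trans (four_le_nu L), rr_pos L, h3, h4⟩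

/-- the synthesis taps -/
noncomputable def gT (L : ℕ) : ℤ → ℤ := FB.gI (kk L) (nu L) (pp L)

/-- the analysis taps -/
noncomputable def hT (L : ℕ) : ℤ → ℤ := FB.hI (kk L) (QQ L / 2) (nu L) (pp L)

theorem ev_taps (h : FB.TapsStatement) : ∀ᶠ L in atTop,
    FB.Taps (tt L) (QQ L) (pp L) (dl L) (2 ^ pp L * cc L) (gT L) (hT L) := by
  filter_upwards [ev_taps_hyp] with L ⟨h1, h2, h3, h4, h5⟩
  have := h (kk L) (QQ L / 2) (nu L) (pp L) h1 h2 h3 h4
  rw [h5] at this
  exact this

section tc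

variable {α : Type} [PTCode α] {P : Dom α} {L : α → ℕ}

/-- `L` and `tt L` in unary -/
theorem tc_L_tt (hL : TU P (fun x => Tb (L x)) L) :
    TC P (fun x => Tb (L x)) (fun x => (Un.mk (L x), Un.mk (tt (L x)))) :=
  TC.prodMk hL.tc (tu_tt hL).tc

theorem small_L_tt : Small P (fun x => Tb (L x)) (fun x => sz (Un.mk (L x), Un.mk (tt (L x)))) :=
  ((((Small.const 2).mul small_L).add (Small.const 1)).add small_tt).mono fun x _ => by
    simp only [sz_prod, sz_un]; omega

/-- the table of the analysis filter (any computable offset) is computed within the budget -/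
theorem tc_tabA_of {o : ℕ → ℕ} (ho : PTF fun u : Un => o u.val)
    (hL : TU P (fun x => Tb (L x)) L) : TC P (fun x => Tb (L x))
    (fun x => FB.tabA (tt (L x)) (gam (L x)) (o (L x)) (2 ^ beta (L x)) (hT (L x))) := by
  have hl : PTU fun q : Un × Un => q.1.val := PTU.val PTF.fst
  have ht : PTU fun q : Un × Un => q.2.val := PTU.val PTF.snd
  -- the exponent is capped so that `2 ^ k` is polynomial in the unary input
  have hk : PTU fun q : Un × Un => 2 ^ min (kk q.1.val) (Nat.log 2 q.2.val) := by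
    refine ptu_of_le (PTF.natTwoPow ((ptu_kk hl).min (ptu_log ht))) ht.succ fun q => ?_
    rcases Nat.eq_zero_or_pos q.2.val with h | h
    · simp [h]
    · exact ((Nat.pow_le_pow_right (by norm_num) (min_le_right _ _)).trans
        (Nat.pow_log_le_self 2 h.ne')).trans (Nat.le_succ _)
  have hQ : PTU fun q : Un × Un => min (QQ q.1.val / 2) q.2.val :=
    PTF.natMinUn (PTF.natDiv (ptf_QQ hl) (PTF.const 2)) ht
  have h := FB.ptf_tabA_hI hk hQ (ptu_nu hl) (ptu_pp hl) (ptf_gam hl)
    (PTF.comp (g := fun u : Un => o u.val) ho PTF.fst) (ptu_BB hl)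
  refine (TC.ptf h (tc_L_tt hL) small_L_tt).of_eq fun x => ?_
  have e1 : min (kk (L x)) (Nat.log 2 (tt (L x))) = kk (L x) := by
    unfold tt; rw [Nat.log_pow (by norm_num), min_self]
  have e2 : min (QQ (L x) / 2) (tt (L x)) = QQ (L x) / 2 :=
    min_eq_left ((Nat.div_le_self _ _).trans (QQ_le_tt _))
  simp only [e1, e2]
  rfl

theorem tc_tabA (hL : TU P (fun x => Tb (L x)) L) : TC P (fun x => Tb (L x))
    (fun x => FB.tabA (tt (L x)) (gam (L x)) (dl (L x)) (2 ^ beta (L x)) (hT (L x))) :=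
  tc_tabA_of (ptf_dl ptu_val) hL

theorem tc_tabA' (hL : TU P (fun x => Tb (L x)) L) : TC P (fun x => Tb (L x))
    (fun x => FB.tabA (tt (L x)) (gam (L x)) (dl (L x) + QQ (L x)) (2 ^ beta (L x)) (hT (L x))) :=
  tc_tabA_of (o := fun L => dl L + QQ L) (PTF.natAdd (ptf_dl ptu_val) (ptf_QQ ptu_val)) hL

/-- the table of the synthesis filter is computed within the budget -/
theorem tc_tabS (hL : TU P (fun x => Tb (L x)) L) : TC P (fun x => Tb (L x))
    (fun x => FB.tabS (tt (L x)) (gam (L x)) (dl (L x)) (2 ^ beta (L x)) (gT (L x))) := by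
  have hl : PTU fun q : Un × Un => q.1.val := PTU.val PTF.fst
  have ht : PTU fun q : Un × Un => q.2.val := PTU.val PTF.snd
  have hk : PTU fun q : Un × Un => 2 ^ min (kk q.1.val) (Nat.log 2 q.2.val) := by
    refine ptu_of_le (PTF.natTwoPow ((ptu_kk hl).min (ptu_log ht))) ht.succ fun q => ?_
    rcases Nat.eq_zero_or_pos q.2.val with h | h
    · simp [h]
    · exact ((Nat.pow_le_pow_right (by norm_num) (min_le_right _ _)).trans
        (Nat.pow_log_le_self 2 h.ne')).trans (Nat.le_succ _)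
  have h := FB.ptf_tabS_gI hk (ptu_nu hl) (ptu_pp hl) (ptf_gam hl) (ptf_dl hl) (ptu_BB hl)
  refine (TC.ptf h (tc_L_tt hL) small_L_tt).of_eq fun x => ?_
  have e1 : min (kk (L x)) (Nat.log 2 (tt (L x))) = kk (L x) := by
    unfold tt; rw [Nat.log_pow (by norm_num), min_self]
  simp only [e1]
  rfl

end tc

end Crest.Agent.X326.Par
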