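import Crest.Agent.X326.Top.Par
import Crest.Agent.X326.FB.Defs

/-!
# Side conditions of the filter bank and of the modulus for the chosen parameters (row 326)
-/

set_option autoImplicit false

namespace Crest.Agent.X326.Par

open Filter

theorem so_size_dl : SO (fun L => Nat.size (dl L)) (31 / 32) :=
  SO.size_mul (((so_nn.const_mul 2).add_const (by norm_num) 1).size.mono (by norm_num)) so_size_tt

theorem so_size_const (c : ℕ) : SO (fun _ => Nat.size c) (31 / 32) :=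
  (SO.const _).mono (by norm_num)

theorem so_size_cc : SO (fun L => Nat.size (cc L)) (31 / 32) := by
  have h4 : SO (fun L => Nat.size (4 ^ kk L)) (31 / 32) := by
    refine SO.size_of_le_two_pow (g := fun L => 2 * kk L) (Eventually.of_forall fun L => ?_)
      (so_kk.const_mul 2) (by norm_num)
    rw [pow_mul]
    exact le_rfl
  refine SO.size_add (SO.size_add ((so_kk.size.mono (by norm_num)).size_mul h4)
    (SO.size_mul ?_ ?_) (by norm_num)) (so_size_const 1) (by norm_num)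
  · exact SO.size_add ((so_size_const 2).size_mul so_size_dl) (so_size_const 1) (by norm_num)
  · exact SO.size_add ((so_size_const 2).size_mul so_size_tt) (so_size_const 1) (by norm_num)

theorem ev_gain_le : ∀ᶠ L in atTop, FB.gain (tt L) (dl L) ≤ tt L ^ 3 := by
  filter_upwards [((((so_nn.const_mul 2).add_const (by norm_num) 1).const_mul 4).add_const
    (by norm_num) 1).le_tt] with L h
  have ht := tt_pos L
  unfold FB.gain dl
  have h1 : 4 * ((2 * nn L + 1) * tt L) + 1 ≤ (4 * (2 * nn L + 1) + 1) * tt L := by nlinarith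
  calc (4 * ((2 * nn L + 1) * tt L) + 1) * tt L ≤ ((4 * (2 * nn L + 1) + 1) * tt L) * tt L :=
        Nat.mul_le_mul_right _ h1
    _ ≤ (tt L * tt L) * tt L := Nat.mul_le_mul_right _ (Nat.mul_le_mul_right _ h)
    _ = _ := by ring

/-- `gain ^ i ≤ 2 ^ (3 c L)` for `i ≤ c * dd` -/
theorem ev_gain_pow_le : ∀ᶠ L in atTop, ∀ c i, i ≤ c * dd L →
    FB.gain (tt L) (dl L) ^ i ≤ 2 ^ (3 * c * L) := by
  filter_upwards [ev_gain_le, ev_tt_pow_le] with L h1 h2 c i hi
  calc FB.gain (tt L) (dl L) ^ i ≤ (tt L ^ 3) ^ i := Nat.pow_le_pow_left h1 _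
    _ ≤ (tt L ^ 3) ^ (c * dd L) := Nat.pow_le_pow_right (pow_pos (tt_pos L) _) hi
    _ = (tt L ^ dd L) ^ (3 * c) := by rw [← pow_mul, ← pow_mul]; congr 1; ring
    _ ≤ (2 ^ L) ^ (3 * c) := Nat.pow_le_pow_left h2 _
    _ = _ := by rw [← pow_mul]; congr 1; ring

theorem ev_AA_le : ∀ᶠ L in atTop, AA L ≤ 2 ^ (2 * L) := by
  filter_upwards [ev_NN_mul_rr_le] with L h
  unfold AA
  rw [two_mul, pow_add]
  exact Nat.mul_le_mul_right _ h

/-- the precision condition of `FB.MainStatement` -/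
theorem ev_precision : ∀ᶠ L in atTop,
    16 * (ee L + 1) * (cc L + 1) * FB.gain (tt L) (dl L) ^ (3 * ee L + 3) *
      (tt L ^ (ee L + 2) * rr L) ^ 2 * (AA L + 1) ^ 2 ≤ 2 ^ pp L := by
  have h0 : ∀ᶠ L in atTop, 16 * (ee L + 1) * (cc L + 1) ≤ 2 ^ L := by
    refine SO.le_two_pow_of_size (a := 31 / 32) (SO.size_mul ?_ ?_) (by norm_num)
    · exact ((so_ee.add_const (by norm_num) 1).const_mul 16).size.mono (by norm_num)
    · exact SO.size_add so_size_cc (so_size_const 1) (by norm_num)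
  filter_upwards [h0, ev_gain_pow_le, ev_grid_le, ev_AA_le, eventually_ge_atTop 1]
    with L h1 h2 h3 h4 hL
  have h5 := h2 3 (3 * ee L + 3) (by rw [dd_eq]; omega)
  have h6 : (tt L ^ (ee L + 2) * rr L) ^ 2 ≤ (2 ^ L) ^ 2 := Nat.pow_le_pow_left h3 2
  have h7 : AA L + 1 ≤ 2 ^ (3 * L) := by
    have : 2 ^ (2 * L) < 2 ^ (3 * L) := Nat.pow_lt_pow_right (by norm_num) (by omega)
    omega
  have h8 : (AA L + 1) ^ 2 ≤ (2 ^ (3 * L)) ^ 2 := Nat.pow_le_pow_left h7 2
  calc _ ≤ 2 ^ L * 2 ^ (3 * 3 * L) * (2 ^ L) ^ 2 * (2 ^ (3 * L)) ^ 2 :=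
        Nat.mul_le_mul (Nat.mul_le_mul (Nat.mul_le_mul h1 h5) h6) h8
    _ = 2 ^ (18 * L) := by rw [← pow_mul, ← pow_mul, ← pow_add, ← pow_add, ← pow_add]; congr 1; ring
    _ ≤ _ := Nat.pow_le_pow_right (by norm_num) (by unfold pp; omega)

/-- bound for the `ℓ¹` norm of the prepared arrays -/
theorem ev_prep_le : ∀ᶠ L in atTop,
    2 ^ pp L * FB.gain (tt L) (dl L) ^ (ee L + 1) * AA L + tt L ^ (ee L + 2) * rr L
      ≤ 2 ^ (38 * L) := by
  filter_upwards [ev_gain_pow_le, ev_grid_le, ev_AA_le, eventually_ge_atTop 1] with L h2 h3 h4 hL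
  have h5 := h2 1 (ee L + 1) (by rw [dd_eq]; omega)
  have h6 : 2 ^ pp L * FB.gain (tt L) (dl L) ^ (ee L + 1) * AA L ≤ 2 ^ (37 * L) := by
    calc _ ≤ 2 ^ pp L * 2 ^ (3 * 1 * L) * 2 ^ (2 * L) :=
          Nat.mul_le_mul (Nat.mul_le_mul_left _ h5) h4
      _ = _ := by rw [← pow_add, ← pow_add]; congr 1; unfold pp; ring
  have h7 : 2 ^ L ≤ 2 ^ (37 * L) := Nat.pow_le_pow_right (by norm_num) (by omega)
  have h8 : 2 ^ (37 * L + 1) ≤ 2 ^ (38 * L) := Nat.pow_le_pow_right (by norm_num) (by omega)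
  rw [pow_succ] at h8
  rw [← dd_eq]
  omega

/-- the grid convolution of the prepared arrays is below half of the modulus `2 ^ PP - 1` -/
theorem ev_modulus : ∀ᶠ L in atTop,
    2 * (2 ^ pp L * FB.gain (tt L) (dl L) ^ (ee L + 1) * AA L + tt L ^ (ee L + 2) * rr L) ^ 2 + 2
      ≤ 2 ^ PP L - 1 := by
  filter_upwards [ev_prep_le, eventually_ge_atTop 1] with L h hL
  have h1 := Nat.pow_le_pow_left h 2
  rw [← pow_mul] at h1
  have h2 : 2 ^ (38 * L * 2 + 3) ≤ 2 ^ PP L := Nat.pow_le_pow_right (by norm_num)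
    (by unfold PP; omega)
  have h3 : 0 < 2 ^ (38 * L * 2) := by positivity
  rw [pow_add] at h2
  omega

theorem ev_two_pow_76_lt : ∀ᶠ L in atTop, 2 * 2 ^ (76 * L) + 2 ≤ 2 ^ PP L - 1 := by
  filter_upwards [eventually_ge_atTop 1] with L hL
  have h2 : 2 ^ (76 * L + 3) ≤ 2 ^ PP L := Nat.pow_le_pow_right (by norm_num)
    (by unfold PP; omega)
  have h3 : 0 < 2 ^ (76 * L) := by positivity
  rw [pow_add] at h2
  omega

/-- the hypothesis of the taps statement, with `Q2 = QQ / 2` -/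
theorem ev_taps_hyp : ∀ᶠ L in atTop, 1 ≤ kk L ∧ 2 ≤ nu L ∧ 0 < QQ L / 2 ∧
    2 * (QQ L / 2) * nu L ≤ 2 ^ kk L * (nu L - 1) ∧ 2 * (QQ L / 2) = QQ L := by
  filter_upwards [ev_kk_ge 1, ev_two_mul_half_QQ, ev_QQ_pos, ev_QQ_mul_nu] with L h1 h2 h3 h4
  have := four_le_nu L
  refine ⟨h1, by omega, by omega, ?_, h2⟩
  rw [h2, h4]; rfl

/-! ### side conditions of the exact convolution -/

theorem ev_dd_le_kk : ∀ᶠ L in atTop, dd L ≤ kk L :=
  so_dd.eventually_le_lb lb_kk (by norm_num)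

theorem ev_Lp_le_PP : ∀ᶠ L in atTop, Lp L ≤ PP L := by
  filter_upwards [eventually_ge_atTop 8] with L h
  have := Lp_le h
  unfold PP; omega

theorem ev_rho_le_PP : ∀ᶠ L in atTop, rho L ≤ PP L := by
  filter_upwards [ev_Lp_le_PP] with L h
  have := dd_mul_kk_add_rho L
  omega

theorem ev_kk_mul_dd_le_PP : ∀ᶠ L in atTop, kk L * dd L ≤ PP L := by
  filter_upwards [ev_Lp_le_PP] with L h
  have := dd_mul_kk_add_rho L
  rw [mul_comm]; omega

theorem ev_PP_le : ∀ᶠ L in atTop, PP L ≤ (rho L + 1) ^ 4 :=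
  so_PP.eventually_le_lb ((lb_rho.add_right fun _ => 1).pow 4) (by norm_num)

theorem ev_PP_le_sq : ∀ᶠ L in atTop, PP L ≤ kk L ^ 2 :=
  so_PP.eventually_le_lb (lb_kk.pow 2) (by norm_num)

theorem ev_PP_ge (c : ℕ) : ∀ᶠ L in atTop, c ≤ PP L := lb_PP.eventually_ge one_pos c

theorem ev_rho_ge (c : ℕ) : ∀ᶠ L in atTop, c ≤ rho L := lb_rho.eventually_ge (by norm_num) c

/-- anything of exponent below `31/32` is eventually below the number of bits per axis -/
theorem _root_.Crest.Agent.X326.SO.le_kk {f : ℕ → ℕ} {a : ℝ} (hf : SO f a) (ha : a < 31 / 32) :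
    ∀ᶠ L in atTop, f L ≤ kk L := hf.eventually_le_lb lb_kk ha

theorem ev_jj_ge (c : ℕ) : ∀ᶠ L in atTop, c ≤ jj L := by
  filter_upwards [eventually_ge_atTop (2 ^ (c * 576))] with L h
  unfold jj
  rw [Nat.le_div_iff_mul_le (by norm_num)]
  have : 0 < 2 ^ (c * 576) := by positivity
  exact (Nat.le_log_iff_pow_le (by norm_num) (by omega)).2 h

/-- `dd ^ c ≤ kk` for `c ≤ 30` -/
theorem ev_dd_pow_le_kk {c : ℕ} (hc : c ≤ 30) (a : ℕ) : ∀ᶠ L in atTop, a * dd L ^ c ≤ kk L := by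
  refine ((so_dd.pow c).const_mul a).le_kk ?_
  have : (c : ℝ) ≤ 30 := by exact_mod_cast hc
  linarith

/-- powers `W ^ jj` of a constant are polynomial in `L` -/
theorem so_pow_jj (W : ℕ) : SO (fun L => W ^ jj L) (Nat.size W) := by
  refine SO.of_le ?_ ((SO.id.pow (Nat.size W)).mono (by simp))
  filter_upwards [eventually_gt_atTop 0] with L hL
  have h1 : jj L ≤ Nat.log 2 L := Nat.div_le_self _ _
  calc W ^ jj L ≤ (2 ^ Nat.size W) ^ jj L := Nat.pow_le_pow_left (Nat.lt_size_self W).le _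
    _ ≤ (2 ^ Nat.size W) ^ Nat.log 2 L := Nat.pow_le_pow_right (by positivity) h1
    _ = (2 ^ Nat.log 2 L) ^ Nat.size W := by rw [← pow_mul, ← pow_mul, mul_comm]
    _ ≤ _ := Nat.pow_le_pow_left (Nat.pow_log_le_self 2 hL.ne') _

end Crest.Agent.X326.Par
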