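import Crest.Agent.X326.Top.BudSV
import Crest.Agent.X326.M4.Defs

/-!
# The parameters of the exact convolution as an `M4.Par` (row 326)
-/

set_option autoImplicit false

namespace Crest.Agent.X326.Par

open Filter Crest.Agent.Lib.PT

/-! ### the parameters of the exact convolution -/

/-- the parameters of M4 -/
def par (L : ℕ) : M4.Par := ⟨kk L, dd L, rho L, PP L⟩

@[simp] theorem par_k (L : ℕ) : (par L).k = kk L := rfl
@[simp] theorem par_d (L : ℕ) : (par L).d = dd L := rfl
@[simp] theorem par_lr (L : ℕ) : (par L).lr = rho L := rfl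
@[simp] theorem par_P (L : ℕ) : (par L).P = PP L := rfl
@[simp] theorem par_t (L : ℕ) : (par L).t = tt L := rfl
@[simp] theorem par_r (L : ℕ) : (par L).r = rr L := rfl
@[simp] theorem par_M (L : ℕ) : (par L).M = 2 ^ PP L - 1 := rfl
@[simp] theorem par_N (L : ℕ) : (par L).N = tt L ^ dd L := pow_mul _ _ _
@[simp] theorem par_vol (L : ℕ) : (par L).vol = tt L ^ dd L * rr L * PP L := by
  simp [M4.Par.vol]

theorem ev_par_ok : ∀ᶠ L in atTop, (par L).Ok := by
  filter_upwards [ev_kk_ge 1, ev_PP_ge 2, ev_rho_le_PP, ev_kk_mul_dd_le_PP, ev_PP_le]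
    with L h1 h2 h3 h4 h5
  exact ⟨h1, (kk_le_rho L).trans (Nat.le_succ _), by simp [dd], h2, h3, h4, h5⟩

theorem sv_par_vol : SV (fun L => (par L).vol) 0 := by
  simpa only [par_vol] using sv_grid_mul (a := 0) (so_PP.mono (by norm_num)) le_rfl

theorem tc_par {α : Type} [PTCode α] {P : Dom α} {L : α → ℕ} (hL : TU P (fun x => Tb (L x)) L) :
    TC P (fun x => Tb (L x)) (fun x => par (L x)) :=
  (TC.prodMk (tu_kk hL).tc (TC.prodMk (tu_dd hL).tc (TC.prodMk (tu_rho hL).tc (tu_PP hL).tc))).recode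
    fun _ _ => rfl

end Crest.Agent.X326.Par
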