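import Crest.Agent.X326.Top.Spec
import Crest.Agent.X326.Top.Budget
import Crest.Agent.X326.Top.Grid
import Crest.Agent.X326.FB.PolyAllDefs
import Crest.Agent.X326.FB.TabPT
import Crest.Agent.X326.FB.Multi

/-!
# Row 326, top level: the pipeline analysis, grid convolution, synthesis
-/

set_option autoImplicit false

namespace Crest.Agent.X326.Top

open Crest.Agent.Lib.PT FB Par Filter

/-- taps of the analysis filter -/
noncomputable def hT (L : ℕ) : ℤ → ℤ := hI (kk L) (QQ L / 2) (nu L) (pp L)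

/-- taps of the synthesis filter -/
noncomputable def gT (L : ℕ) : ℤ → ℤ := gI (kk L) (nu L) (pp L)

/-- width of the taps -/
def wt (L : ℕ) : ℕ := pp L + kk L + 1

theorem so_wt : SO wt 1 := (so_pp.add (so_kk.mono (by norm_num))).add_const zero_le_one 1

section tables

variable {α : Type} [PTCode α] {P : Dom α} {L : α → ℕ}

theorem ptu_two_pow_log : PTU fun a : Un × Un => 2 ^ Nat.log 2 a.1.val := by
  have ht : PTU fun a : Un × Un => a.1.val := PTU.val PTF.fst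
  refine ptu_of_le (PTF.natTwoPow (ptu_log ht)) ht.succ fun a => ?_
  rcases Nat.eq_zero_or_pos a.1.val with h | h
  · simp [h]
  · exact (Nat.pow_log_le_self 2 h.ne').trans (Nat.le_succ _)

theorem log_tt (L : ℕ) : Nat.log 2 (tt L) = kk L := Nat.log_pow (by norm_num) _

theorem tc_of_ptf_tt {β : Type} [PTCode β] {g : Un × Un → β} (hg : PTF g)
    (hL : TU P (fun x => Tb (L x)) L) :
    TC P (fun x => Tb (L x)) (fun x => g (⟨tt (L x)⟩, ⟨L x⟩)) :=
  TC.ptf (f := fun x => (Un.mk (tt (L x)), Un.mk (L x))) hg ((tu_tt hL).tc.prodMk hL.tc)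
    (Small.sz_pair (small_tt.mono fun x _ => by simp) (small_L.mono fun x _ => by simp))

theorem tc_tabA (hL : TU P (fun x => Tb (L x)) L) : TC P (fun x => Tb (L x))
    (fun x => tabA (tt (L x)) (gam (L x)) (dl (L x) + QQ (L x)) (2 ^ beta (L x)) (hT (L x))) := by
  have ht : PTU fun a : Un × Un => a.1.val := PTU.val PTF.fst
  have hl : PTU fun a : Un × Un => a.2.val := PTU.val PTF.snd
  have h := ptf_tabA_hI (k := fun a : Un × Un => Nat.log 2 a.1.val) ptu_two_pow_log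
    (PTF.natMinUn (PTF.natDiv (ptf_QQ hl) (PTF.const 2)) ht) (ptu_nu hl) (ptu_pp hl) (ptf_gam hl)
    (PTF.natAdd (ptf_dl hl) (ptf_QQ hl)) (ptu_BB hl)
  refine (tc_of_ptf_tt h hL).of_eq fun x => ?_
  have : min (QQ (L x) / 2) (tt (L x)) = QQ (L x) / 2 :=
    min_eq_left ((Nat.div_le_self _ _).trans (QQ_le_tt _))
  simp only [log_tt, this]
  rfl

theorem tc_tabS (hL : TU P (fun x => Tb (L x)) L) : TC P (fun x => Tb (L x))
    (fun x => tabS (tt (L x)) (gam (L x)) (dl (L x)) (2 ^ beta (L x)) (gT (L x))) := by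
  have hl : PTU fun a : Un × Un => a.2.val := PTU.val PTF.snd
  have h := ptf_tabS_gI (k := fun a : Un × Un => Nat.log 2 a.1.val) ptu_two_pow_log
    (ptu_nu hl) (ptu_pp hl) (ptf_gam hl) (ptf_dl hl) (ptu_BB hl)
  refine (tc_of_ptf_tt h hL).of_eq fun x => ?_
  simp only [log_tt]
  rfl

end tables

theorem sv_bankCost {μ : ℕ → ℕ → ℕ} (hμ : MuOk μ) {w : ℕ → ℕ} (hw : SO w 1) :
    SV (fun L => bankCost μ (tt L) (nu L) (beta L) (rr L) (ee L) (w L) (wt L)) (3 / 32) := by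
  have he : SO (fun L => ee L + 1) (1 / 32) := so_ee.add_const (by norm_num) 1
  have h1 : SO (fun L => w L + (ee L + 1) * (wt L + beta L)) (1 / 32 + 1) :=
    (hw.mono (by norm_num)).add (he.mul (so_wt.add (so_beta.mono zero_le_one)))
  exact (sv_mul_bandCost hμ h1 (by norm_num) he).mono (by norm_num)

/-- all side conditions of the pipeline -/
structure PipeOk (ok : M4.Par → Prop) (L : ℕ) : Prop where
  ok : ok (par L)
  taps : Taps (tt L) (QQ L) (pp L) (dl L) (2 ^ pp L * cc L) (gT L) (hT L)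
  bank : BankOk (tt L) (QQ L) (gam L) (nu L) (beta L) (dl L) (rr L)
  QQ_pos : 0 < QQ L
  six : 6 * dl L < tt L * QQ L
  prec : 16 * (ee L + 1) * (cc L + 1) * gain (tt L) (dl L) ^ (3 * ee L + 3) *
      (tt L ^ (ee L + 2) * rr L) ^ 2 * (AA L + 1) ^ 2 ≤ 2 ^ pp L
  modulus : 2 * (2 ^ pp L * gain (tt L) (dl L) ^ (ee L + 1) * AA L +
      tt L ^ (ee L + 2) * rr L) ^ 2 + 2 ≤ 2 ^ PP L - 1

theorem ev_pipeOk (ht : TapsStatement) {ok : M4.Par → Prop} (hok : ∀ᶠ L in atTop, ok (par L)) :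
    ∀ᶠ L in atTop, PipeOk ok L := by
  filter_upwards [hok, ev_taps_hyp, ev_gam_mul_nu, ev_gam_pos, ev_BB_dvd, ev_dl_BB, ev_QQ_pos,
    ev_six_dl_lt, ev_precision, ev_modulus] with L h0 h1 h2 h3 h4 h5 h6 h7 h8 h9
  refine ⟨h0, ?_, ⟨h2.symm, rfl, h3, h1.2.1, rr_pos L, h4, h5⟩, h6, h7, h8, h9⟩
  have := ht (kk L) (QQ L / 2) (nu L) (pp L) h1.1 h1.2.1 h1.2.2.1 h1.2.2.2.1
  rw [h1.2.2.2.2] at this
  exact this

namespace PipeOk

variable {ok : M4.Par → Prop} {L : ℕ} (h : PipeOk ok L)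
include h

theorem abs_hT (m : ℤ) : |hT L m| < 2 ^ wt L := by
  refine (h.taps.abs_h m).trans_lt ?_
  unfold wt tt
  push_cast
  rw [← pow_add]
  exact pow_lt_pow_right₀ (by norm_num) (Nat.lt_succ_self _)

theorem abs_gT (m : ℤ) : |gT L m| < 2 ^ wt L := by
  refine (h.taps.abs_g m).trans_lt ?_
  unfold wt tt
  push_cast
  rw [← pow_add]
  exact pow_lt_pow_right₀ (by norm_num) (Nat.lt_succ_self _)

omit h in
theorem l1_le {a : Arr} (ha : ∀ x < NN L * rr L, |a x| ≤ 2 ^ L) :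
    l1 (tt L * QQ L ^ (ee L + 1) * rr L) a ≤ AA L := by
  refine (l1_le_of_abs_le ha).trans (le_of_eq ?_)
  unfold AA
  push_cast
  rfl

theorem abs_prep {a : Arr} (ha : ∀ x < NN L * rr L, |a x| ≤ 2 ^ L) {x : ℕ}
    (hx : x < tt L ^ (ee L + 2) * rr L) :
    |prep (tt L) (QQ L) (pp L) (dl L) (hT L) (ee L) (rr L) a x| < ((2 ^ PP L - 1 : ℕ) : ℤ) := by
  have h1 := (abs_le_l1 _ hx).trans (l1_prep h.taps h.QQ_pos (ee L) (rr L) a)
  have h2 : (2 : ℤ) ^ pp L * (gain (tt L) (dl L) : ℤ) ^ (ee L + 1) *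
      l1 (tt L * QQ L ^ (ee L + 1) * rr L) a ≤ 2 ^ pp L * (gain (tt L) (dl L) : ℤ) ^ (ee L + 1) *
      (AA L : ℤ) := mul_le_mul_of_nonneg_left (l1_le ha) (by positivity)
  have h3 := h.modulus
  generalize hB : 2 ^ pp L * gain (tt L) (dl L) ^ (ee L + 1) * AA L + tt L ^ (ee L + 2) * rr L = B
    at h3
  have h4 : B < 2 ^ PP L - 1 := by nlinarith [Nat.zero_le B]
  have h5 : ((B : ℕ) : ℤ) < ((2 ^ PP L - 1 : ℕ) : ℤ) := by exact_mod_cast h4
  refine lt_of_le_of_lt ?_ h5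
  rw [← hB]
  push_cast at h1 ⊢
  linarith

theorem abs_tower {a b : Arr} (ha : ∀ x < NN L * rr L, |a x| ≤ 2 ^ L)
    (hb : ∀ x < NN L * rr L, |b x| ≤ 2 ^ L) {x : ℕ} (hx : x < tt L ^ (ee L + 2) * rr L) :
    2 * |tower (tt L) (ee L + 1) (rr L) (nega (rr L))
      (prep (tt L) (QQ L) (pp L) (dl L) (hT L) (ee L) (rr L) a)
      (prep (tt L) (QQ L) (pp L) (dl L) (hT L) (ee L) (rr L) b) x| < ((2 ^ PP L - 1 : ℕ) : ℤ) := by
  have h1 := (abs_le_l1 _ hx).trans
    (abs_tower_prep (bil_nega (rr L)) h.taps h.QQ_pos (ee L) (l1_le ha) (l1_le hb))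
  have h3 := h.modulus
  generalize 2 ^ pp L * gain (tt L) (dl L) ^ (ee L + 1) * AA L + tt L ^ (ee L + 2) * rr L = B
    at h1 h3
  have h4 : 2 * B ^ 2 < 2 ^ PP L - 1 := by omega
  have h5 : ((2 * B ^ 2 : ℕ) : ℤ) < ((2 ^ PP L - 1 : ℕ) : ℤ) := by exact_mod_cast h4
  refine lt_of_le_of_lt ?_ h5
  push_cast
  linarith

end PipeOk

theorem par_len (L : ℕ) : (par L).N * (par L).r = tt L ^ (ee L + 2) * rr L := by
  rw [par_N, par_r, dd_eq]

/-- **The pipeline.** -/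
theorem specCyc_of {μ : ℕ → ℕ → ℕ} (hμ : MuOk μ) (ht : TapsStatement) (hp : PrepLStatement)
    (hf : FinishLStatement) (tp : PrepLTC μ) (tf : FinishLTC μ) {ok : M4.Par → Prop}
    {T : M4.Par → ℕ} (hG : SpecGrid ok T) (hok : ∀ᶠ L in atTop, ok (par L)) {τ : ℝ}
    (hT' : SV (fun L => T (par L)) τ) (hτ : τ < aT) : SpecCyc Tb := by
  obtain ⟨G, hG, eG⟩ := hG
  obtain ⟨L₀, hL₀⟩ := eventually_atTop.1 (ev_pipeOk ht hok)
  let pr : ℕ → List ℤ → List ℤ := fun L l => prepL (nu L) (beta L) (pp L) (ee L) (rr L)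
    (tabA (tt L) (gam L) (dl L + QQ L) (2 ^ beta L) (hT L)) l
  let fi : ℕ → List ℤ → List ℤ := fun L l => finishL (nu L) (beta L) (pp L) (ee L) (rr L)
    (tabS (tt L) (gam L) (dl L) (2 ^ beta L) (gT L)) l
  let pa : ℕ → Arr → Arr := fun L => prep (tt L) (QQ L) (pp L) (dl L) (hT L) (ee L) (rr L)
  have epr : ∀ L a, L₀ ≤ L →
      pr L (tab (NN L * rr L) a) = tab (tt L ^ (ee L + 2) * rr L) (pa L a) := fun L a hL =>
    hp _ _ _ _ _ _ _ _ _ _ a (hL₀ L hL).bank (hL₀ L hL).taps.supp_h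
  have egr : ∀ L a b, L₀ ≤ L → (∀ x < NN L * rr L, |a x| ≤ 2 ^ L) →
      (∀ x < NN L * rr L, |b x| ≤ 2 ^ L) →
      G (par L, pr L (tab (NN L * rr L) a), pr L (tab (NN L * rr L) b)) =
        tab (tt L ^ (ee L + 2) * rr L)
          (tower (tt L) (ee L + 1) (rr L) (nega (rr L)) (pa L a) (pa L b)) := by
    intro L a b hL ha hb
    have h := hL₀ L hL
    rw [epr L a hL, epr L b hL, ← par_len]
    exact eG (par L) _ _ h.ok (fun x hx => h.abs_prep ha (par_len L ▸ hx))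
      (fun x hx => h.abs_prep hb (par_len L ▸ hx)) (fun x hx => h.abs_tower ha hb (par_len L ▸ hx))
  have dig : ∀ {L : ℕ} {l : List ℤ}, DigL L l →
      ∃ a : Arr, l = tab (NN L * rr L) a ∧ ∀ x < NN L * rr L, |a x| ≤ 2 ^ L := by
    intro L l hl
    refine ⟨fun i => l.getD i 0, eq_tab hl.1 0, fun x hx => ?_⟩
    have h := hl.2
    rw [eq_tab hl.1 0, forall_mem_tab] at h
    rw [abs_of_nonneg (h x hx).1]
    exact (h x hx).2.le
  refine ⟨fun q => fi q.1.val (G (par q.1.val, pr q.1.val q.2.1, pr q.1.val q.2.2)), L₀, ?_, ?_⟩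
  · set D : Un × List ℤ × List ℤ → Prop :=
      fun q => L₀ ≤ q.1.val ∧ DigL q.1.val q.2.1 ∧ DigL q.1.val q.2.2 with hD
    have hL : TU D (fun q => Tb q.1.val) (fun q => q.1.val) := TU.val TC.id.fst
    have tpr : ∀ {l : Un × List ℤ × List ℤ → List ℤ}, TC D (fun q => Tb q.1.val) l →
        (∀ q, D q → DigL q.1.val (l q)) →
        TC D (fun q => Tb q.1.val) (fun q => pr q.1.val (l q)) := by
      intro l hl hd
      refine tp _ D _ (fun q => tt q.1.val) (fun q => QQ q.1.val) (fun q => gam q.1.val)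
        (fun q => nu q.1.val) (fun q => beta q.1.val) (fun q => dl q.1.val) (fun q => rr q.1.val)
        (fun q => pp q.1.val) (fun q => ee q.1.val) (fun q => q.1.val) (fun q => wt q.1.val)
        (fun q => hT q.1.val) l (tu_rr hL) (tu_nu hL) (tu_beta hL) (tu_pp hL) (tu_ee hL)
        (tc_tabA hL) hl (fun q hq => ?_) ((sv_bankCost hμ SO.id).bud (lt_aT (by norm_num)))
      have h := hL₀ _ hq.1
      refine ⟨h.bank, h.taps.supp_h, h.abs_hT, by unfold wt; omega, (hd q hq).1, fun v hv => ?_⟩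
      rw [abs_of_nonneg ((hd q hq).2 v hv).1]
      exact ((hd q hq).2 v hv).2
    have gr : ∀ {L : ℕ} {l : List ℤ}, L₀ ≤ L → DigL L l → GrL (par L) (pr L l) := by
      intro L l hL hl
      obtain ⟨a, rfl, ha⟩ := dig hl
      rw [epr L a hL]
      exact ⟨by rw [length_tab, par_len],
        forall_mem_tab.2 fun x hx => (hL₀ L hL).abs_prep ha hx⟩
    have tG : TC D (fun q => Tb q.1.val)
        (fun q => G (par q.1.val, pr q.1.val q.2.1, pr q.1.val q.2.2)) :=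
      hG.comp ((tc_par hL).prodMk ((tpr TC.id.snd.fst fun q hq => hq.2.1).prodMk
        (tpr TC.id.snd.snd fun q hq => hq.2.2)))
        (fun q hq => ⟨(hL₀ _ hq.1).ok, gr hq.1 hq.2.1, gr hq.1 hq.2.2⟩) (hT'.bud hτ)
    refine tf _ D _ (fun q => tt q.1.val) (fun q => QQ q.1.val) (fun q => gam q.1.val)
      (fun q => nu q.1.val) (fun q => beta q.1.val) (fun q => dl q.1.val) (fun q => rr q.1.val)
      (fun q => pp q.1.val) (fun q => ee q.1.val) (fun q => PP q.1.val) (fun q => wt q.1.val)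
      (fun q => gT q.1.val) _ (tu_rr hL) (tu_nu hL) (tu_beta hL) (tu_pp hL) (tu_ee hL)
      (tc_tabS hL) tG (fun q hq => ?_) ((sv_bankCost hμ so_PP).bud (lt_aT (by norm_num)))
    have h := hL₀ _ hq.1
    obtain ⟨a, ea, ha⟩ := dig hq.2.1
    obtain ⟨b, eb, hb⟩ := dig hq.2.2
    refine ⟨h.bank, h.taps.supp_g, h.abs_gT, by unfold wt; omega, ?_⟩
    rw [ea, eb, egr _ a b hq.1 ha hb]
    refine ⟨length_tab _ _, forall_mem_tab.2 fun x hx => ?_⟩
    have h1 := h.abs_tower ha hb hx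
    have h2 : ((2 ^ PP q.1.val - 1 : ℕ) : ℤ) ≤ 2 ^ PP q.1.val := by
      exact_mod_cast Nat.sub_le _ _
    have h3 := abs_nonneg (tower (tt q.1.val) (ee q.1.val + 1) (rr q.1.val) (nega (rr q.1.val))
      (pa q.1.val a) (pa q.1.val b) x)
    simp only [pa] at h3 ⊢
    linarith
  · intro L a b hL ha hb
    have h := hL₀ L hL
    have ha' : ∀ x < NN L * rr L, |a x| ≤ 2 ^ L := fun x _ => by
      rw [abs_of_nonneg (ha x).1]; exact (ha x).2.le
    have hb' : ∀ x < NN L * rr L, |b x| ≤ 2 ^ L := fun x _ => by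
      rw [abs_of_nonneg (hb x).1]; exact (hb x).2.le
    change fi L (G (par L, pr L (tab (NN L * rr L) a), pr L (tab (NN L * rr L) b))) =
      tab (NN L * rr L) _
    rw [egr L a b hL ha' hb']
    refine (hf _ _ _ _ _ _ _ _ _ _ _ h.bank h.taps.supp_g).trans (tab_congr ?_)
    exact FB.main _ _ _ _ _ _ _ _ (AA L) _ _ _ a b _ h.taps h.QQ_pos (QQ_le_tt L) (rr_pos L) h.six
      le_rfl (bil_nega _) (PipeOk.l1_le ha') (PipeOk.l1_le hb') h.prec (fun _ _ => rfl)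

end Crest.Agent.X326.Top
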