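import Crest.Agent.X326.Top.Digits
import Crest.Agent.X326.Top.Par
import Crest.Agent.X326.TC.Core

/-!
# Row 326, top level: the interface between the pipeline and the final assembly

All statements are indexed by `L = size n` (given in unary); the parameters are those of
`Top/Par.lean`.
-/

set_option autoImplicit false

namespace Crest.Agent.X326.Top

open Crest.Agent.Lib.PT FB Par

/-- a flat list of `NN L` records of `rr L` digits below `2 ^ L` -/
def DigL (L : ℕ) (l : List ℤ) : Prop := l.length = NN L * rr L ∧ ∀ z ∈ l, 0 ≤ z ∧ z < 2 ^ L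

/-- **What the pipeline delivers** (`Top/Pipe*.lean`): for all large `L` the exact cyclic
convolution of length `NN L` of records modulo `y ^ rr L + 1`, at cost `T L`. -/
def SpecCyc (T : ℕ → ℕ) : Prop :=
  ∃ (F : Un × List ℤ × List ℤ → List ℤ) (L₀ : ℕ),
    TC (fun q => L₀ ≤ q.1.val ∧ DigL q.1.val q.2.1 ∧ DigL q.1.val q.2.2) (fun q => T q.1.val) F ∧
    ∀ (L : ℕ) (a b : Arr), L₀ ≤ L → (∀ x, 0 ≤ a x ∧ a x < 2 ^ L) → (∀ x, 0 ≤ b x ∧ b x < 2 ^ L) →
      F (⟨L⟩, (List.range (NN L * rr L)).map a, (List.range (NN L * rr L)).map b) =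
        (List.range (NN L * rr L)).map (cyc (NN L) (rr L) (nega (rr L)) a b)

/-- **Multiplication of large numbers**: for all large `L`, numbers below `2 ^ 2 ^ L` are
multiplied at cost `T L`. -/
def SpecBig (T : ℕ → ℕ) : Prop :=
  ∃ L₀ : ℕ, TC (fun q : Un × ℕ × ℕ => L₀ ≤ q.1.val ∧ q.2.1 < 2 ^ 2 ^ q.1.val ∧
    q.2.2 < 2 ^ 2 ^ q.1.val) (fun q => T q.1.val) (fun q => q.2.1 * q.2.2)

/-- proved in `Top/Alg.lean` -/
def BigStatement : Prop := ∀ T : ℕ → ℕ, SpecCyc T → SpecBig (fun L => T L + 2 ^ L)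

/-- multiplication of `n`-bit numbers within the bound of the statement -/
def SpecMul : Prop :=
  TC (fun q : Un × ℕ × ℕ => q.2.1 < 2 ^ q.1.val ∧ q.2.2 < 2 ^ q.1.val)
    (fun q => tb (2 * q.1.val)) (fun q => q.2.1 * q.2.2)

/-- proved in `Top/Main.lean` -/
def MulStatement : Prop :=
  ∀ (T : ℕ → ℕ) (a : ℝ), SV T a → a < 1 - 1 / (2 : ℝ) ^ 182 → SpecBig T → SpecMul

end Crest.Agent.X326.Top
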