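import Crest.Agent.X326.Top.ParBank
import Crest.Agent.X326.Top.Grid
import Crest.Agent.X326.Top.Spec
import Crest.Agent.X326.FB.Multi

/-!
# Row 326, top level: the pipeline (analysis, exact grid convolution, synthesis)
-/

set_option autoImplicit false

namespace Crest.Agent.X326.Top.P2

open Filter Crest.Agent.Lib.PT FB Par

/-- all side conditions at a large `L` -/
structure Good (ok : M4.Par → Prop) (L : ℕ) : Prop where
  ok : ok (par L)
  bank : BankOk (tt L) (QQ L) (gam L) (nu L) (beta L) (dl L) (rr L)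
  taps : Taps (tt L) (QQ L) (pp L) (dl L) (2 ^ pp L * cc L) (gT L) (hT L)
  Q_pos : 0 < QQ L
  six : 6 * dl L < tt L * QQ L
  prec : 16 * (ee L + 1) * (cc L + 1) * gain (tt L) (dl L) ^ (3 * ee L + 3) *
      (tt L ^ (ee L + 2) * rr L) ^ 2 * (AA L + 1) ^ 2 ≤ 2 ^ pp L
  modu : 2 * (2 ^ pp L * gain (tt L) (dl L) ^ (ee L + 1) * AA L + tt L ^ (ee L + 2) * rr L) ^ 2 + 2
      ≤ 2 ^ PP L - 1

theorem ev_good {ok : M4.Par → Prop} (hok : ∀ᶠ L in atTop, ok (par L)) (ht : TapsStatement) :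
    ∀ᶠ L in atTop, Good ok L := by
  filter_upwards [hok, ev_bankOk, ev_taps ht, ev_QQ_pos, ev_six_dl_lt, ev_precision, ev_modulus]
    with L h1 h2 h3 h4 h5 h6 h7
  exact ⟨h1, h2, h3, h4, h5, h6, h7⟩

/-- analysis on lists at the parameters `L` -/
noncomputable def pre (L : ℕ) (x : List ℤ) : List ℤ :=
  prepL (nu L) (beta L) (pp L) (ee L) (rr L)
    (tabA (tt L) (gam L) (dl L + QQ L) (2 ^ beta L) (hT L)) x

/-- synthesis on lists at the parameters `L` -/
noncomputable def fin (L : ℕ) (x : List ℤ) : List ℤ :=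
  finishL (nu L) (beta L) (pp L) (ee L) (rr L) (tabS (tt L) (gam L) (dl L) (2 ^ beta L) (gT L)) x

/-- the prepared array -/
noncomputable def preA (L : ℕ) (a : Arr) : Arr :=
  prep (tt L) (QQ L) (pp L) (dl L) (hT L) (ee L) (rr L) a

theorem grid_eq (L : ℕ) : (par L).N * (par L).r = tt L ^ (ee L + 2) * rr L := by
  rw [par_N, par_r, dd_eq]

variable {ok : M4.Par → Prop} {L : ℕ}

theorem l1_le_AA {a : Arr} (ha : ∀ x < NN L * rr L, 0 ≤ a x ∧ a x < 2 ^ L) :
    l1 (tt L * QQ L ^ (ee L + 1) * rr L) a ≤ AA L := by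
  refine (l1_le_of_abs_le (B := 2 ^ L) fun x hx => ?_).trans (le_of_eq ?_)
  · rw [abs_of_nonneg (ha x hx).1]; exact (ha x hx).2.le
  · unfold AA NN; push_cast; ring

theorem Good.pre_eq (h : Good ok L) (hs : PrepLStatement) (a : Arr) :
    pre L (tab (NN L * rr L) a) = tab ((par L).N * (par L).r) (preA L a) := by
  rw [grid_eq]
  exact hs _ _ _ _ _ _ _ _ _ _ a h.bank h.taps.supp_h

/-- the bound on the prepared array, as an integer -/
theorem Good.sq_lt (h : Good ok L) :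
    2 * ((2 ^ pp L * gain (tt L) (dl L) ^ (ee L + 1) * AA L + tt L ^ (ee L + 2) * rr L : ℕ) : ℤ) ^ 2
      + 2 ≤ ((par L).M : ℤ) := by
  have := h.modu
  rw [par_M]
  exact_mod_cast this

theorem Good.abs_preA (h : Good ok L) {a : Arr}
    (ha : ∀ x < NN L * rr L, 0 ≤ a x ∧ a x < 2 ^ L) :
    ∀ x < (par L).N * (par L).r, |preA L a x| < ((par L).M : ℤ) := by
  intro x hx
  rw [grid_eq] at hx
  have h1 := (abs_le_l1 _ hx).trans (l1_prep h.taps h.Q_pos (ee L) (rr L) a)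
  have h2 := l1_le_AA ha
  have h3 := h.sq_lt
  have h4 : (0 : ℤ) ≤ 2 ^ pp L * (gain (tt L) (dl L) : ℤ) ^ (ee L + 1) := by positivity
  have h5 := mul_le_mul_of_nonneg_left h2 h4
  have h6 : |preA L a x| ≤
      ((2 ^ pp L * gain (tt L) (dl L) ^ (ee L + 1) * AA L + tt L ^ (ee L + 2) * rr L : ℕ) : ℤ) := by
    refine h1.trans ?_
    push_cast at h5 ⊢
    linarith
  generalize ((2 ^ pp L * gain (tt L) (dl L) ^ (ee L + 1) * AA L + tt L ^ (ee L + 2) * rr L : ℕ) : ℤ)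
    = B at h3 h6
  nlinarith [sq_nonneg (B - 1), sq_nonneg B]

theorem Good.abs_tower (h : Good ok L) {a b : Arr}
    (ha : ∀ x < NN L * rr L, 0 ≤ a x ∧ a x < 2 ^ L)
    (hb : ∀ x < NN L * rr L, 0 ≤ b x ∧ b x < 2 ^ L) :
    ∀ x < (par L).N * (par L).r, 2 * |tower (par L).t ((par L).d - 1) (par L).r (nega (par L).r)
      (preA L a) (preA L b) x| < ((par L).M : ℤ) := by
  intro x hx
  rw [grid_eq] at hx
  have h1 := (abs_le_l1 _ hx).trans
    (abs_tower_prep (bil_nega (rr L)) h.taps h.Q_pos (ee L) (l1_le_AA ha) (l1_le_AA hb))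
  have h3 := h.sq_lt
  have e : tower (par L).t ((par L).d - 1) (par L).r (nega (par L).r) (preA L a) (preA L b) x =
      tower (tt L) (ee L + 1) (rr L) (nega (rr L))
        (prep (tt L) (QQ L) (pp L) (dl L) (hT L) (ee L) (rr L) a)
        (prep (tt L) (QQ L) (pp L) (dl L) (hT L) (ee L) (rr L) b) x := rfl
  rw [e]
  linarith

theorem digL_eq {l : List ℤ} (h : DigL L l) :
    l = tab (NN L * rr L) (fun i => l.getD i 0) ∧
      ∀ x < NN L * rr L, 0 ≤ l.getD x 0 ∧ l.getD x 0 < 2 ^ L := by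
  refine ⟨eq_tab h.1 0, fun x hx => h.2 _ ?_⟩
  rw [← h.1] at hx
  rw [List.getD_eq_getElem _ _ hx]
  exact List.getElem_mem hx

theorem Good.grL (h : Good ok L) (hs : PrepLStatement) {l : List ℤ} (hl : DigL L l) :
    GrL (par L) (pre L l) := by
  obtain ⟨e, hb⟩ := digL_eq hl
  rw [e, h.pre_eq hs]
  refine ⟨length_tab _ _, fun z hz => ?_⟩
  obtain ⟨i, hi, rfl⟩ := mem_tab.1 hz
  exact h.abs_preA hb i hi

theorem Good.abs_hT (h : Good ok L) (m : ℤ) : |hT L m| < 2 ^ wt L :=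
  (h.taps.abs_h m).trans_lt (two_pow_pp_mul_tt_lt L)

theorem Good.abs_gT (h : Good ok L) (m : ℤ) : |gT L m| < 2 ^ wt L :=
  (h.taps.abs_g m).trans_lt (two_pow_pp_mul_tt_lt L)

/-- **The pipeline.** -/
theorem specCyc {TG : M4.Par → ℕ} {μ : ℕ → ℕ → ℕ} {a : ℝ} (hG : SpecGrid ok TG)
    (hok : ∀ᶠ L in atTop, ok (par L)) (hTG : SV (fun L => TG (par L)) a) (ha : a < aT)
    (hμ : MuOk μ) (ht : TapsStatement) (hps : PrepLStatement) (hfs : FinishLStatement)
    (hpt : PrepLTC μ) (hft : FinishLTC μ) : SpecCyc Tb := by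
  obtain ⟨G, hGt, hGs⟩ := hG
  obtain ⟨L₀, hL₀⟩ := eventually_atTop.1 (ev_good hok ht)
  have key : ∀ (L : ℕ) (a b : Arr), L₀ ≤ L → (∀ x < NN L * rr L, 0 ≤ a x ∧ a x < 2 ^ L) →
      (∀ x < NN L * rr L, 0 ≤ b x ∧ b x < 2 ^ L) →
      G (par L, pre L (tab (NN L * rr L) a), pre L (tab (NN L * rr L) b)) =
        tab ((par L).N * (par L).r) (tower (par L).t ((par L).d - 1) (par L).r (nega (par L).r)
          (preA L a) (preA L b)) := by
    intro L a b hL ha hb
    have h := hL₀ L hL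
    rw [h.pre_eq hps, h.pre_eq hps]
    exact hGs _ _ _ h.ok (h.abs_preA ha) (h.abs_preA hb) (h.abs_tower ha hb)
  refine ⟨fun q => fin q.1.val (G (par q.1.val, pre q.1.val q.2.1, pre q.1.val q.2.2)), L₀, ?_, ?_⟩
  · set D : Un × List ℤ × List ℤ → Prop :=
      fun q => L₀ ≤ q.1.val ∧ DigL q.1.val q.2.1 ∧ DigL q.1.val q.2.2 with hD
    have hL : TU D (fun q => Tb q.1.val) (fun q => q.1.val) := TU.val TC.id.fst
    have hpre : ∀ x : Un × List ℤ × List ℤ → List ℤ, TC D (fun q => Tb q.1.val) x →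
        (∀ q, D q → DigL q.1.val (x q)) →
        TC D (fun q => Tb q.1.val) (fun q => pre q.1.val (x q)) := by
      intro x hx hd
      refine hpt _ D _ (fun q => tt q.1.val) (fun q => QQ q.1.val) _ _ _ _ _ _ _
        (fun q => q.1.val) (fun q => wt q.1.val) _ x (tu_rr hL) (tu_nu hL) (tu_beta hL) (tu_pp hL)
        (tu_ee hL) (tc_tabA' hL) hx (fun q hq => ?_) ((sv_bankCost hμ SO.id).bud three_div_lt_aT)
      have h := hL₀ _ hq.1
      refine ⟨h.bank, h.taps.supp_h, h.abs_hT, pp_le_wt _, (hd q hq).1, fun v hv => ?_⟩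
      have := (hd q hq).2 v hv
      rw [abs_of_nonneg this.1]; exact this.2
    have h1 := hpre _ TC.id.snd.fst fun q hq => hq.2.1
    have h2 := hpre _ TC.id.snd.snd fun q hq => hq.2.2
    have h3 : TC D (fun q => Tb q.1.val)
        (fun q => G (par q.1.val, pre q.1.val q.2.1, pre q.1.val q.2.2)) :=
      hGt.comp (TC.prodMk (tc_par hL) (TC.prodMk h1 h2))
        (fun q hq => ⟨(hL₀ _ hq.1).ok, (hL₀ _ hq.1).grL hps hq.2.1, (hL₀ _ hq.1).grL hps hq.2.2⟩)
        (hTG.bud ha)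
    refine hft _ D _ (fun q => tt q.1.val) (fun q => QQ q.1.val) _ _ _ _ _ _ _
      (fun q => PP q.1.val) (fun q => wt q.1.val) _ _ (tu_rr hL) (tu_nu hL) (tu_beta hL) (tu_pp hL)
      (tu_ee hL) (tc_tabS hL) h3 (fun q hq => ?_) ((sv_bankCost hμ so_PP).bud three_div_lt_aT)
    have h := hL₀ _ hq.1
    obtain ⟨e1, b1⟩ := digL_eq hq.2.1
    obtain ⟨e2, b2⟩ := digL_eq hq.2.2
    have e := key _ _ _ hq.1 b1 b2
    rw [← e1, ← e2] at e
    refine ⟨h.bank, h.taps.supp_g, h.abs_gT, pp_le_wt _, ?_, ?_⟩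
    · rw [e, length_tab, grid_eq]
    · rw [e]
      intro v hv
      obtain ⟨i, hi, rfl⟩ := mem_tab.1 hv
      have h4 := h.abs_tower b1 b2 i hi
      have h5 : (((par q.1.val).M : ℕ) : ℤ) ≤ 2 ^ PP q.1.val := by
        rw [par_M]; exact_mod_cast Nat.sub_le _ _
      have h6 := abs_nonneg (tower (par q.1.val).t ((par q.1.val).d - 1) (par q.1.val).r
        (nega (par q.1.val).r) (preA q.1.val fun i => q.2.1.getD i 0)
        (preA q.1.val fun i => q.2.2.getD i 0) i)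
      linarith
  · intro L a b hL ha hb
    have h := hL₀ L hL
    have e := key L a b hL (fun x _ => ha x) (fun x _ => hb x)
    change fin L (G (par L, pre L (tab (NN L * rr L) a), pre L (tab (NN L * rr L) b))) =
      tab (NN L * rr L) _
    rw [e, grid_eq]
    unfold fin
    rw [hfs _ _ _ _ _ _ _ _ _ _ _ h.bank h.taps.supp_g]
    refine tab_congr fun x hx => ?_
    exact FB.main _ _ _ _ _ (cc L) _ _ (AA L) _ _ _ a b _ h.taps h.Q_pos (QQ_le_tt L) (rr_pos L)
      h.six le_rfl (bil_nega _) (l1_le_AA fun x _ => ha x) (l1_le_AA fun x _ => hb x) h.prec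
      (fun _ _ => rfl) x hx

end Crest.Agent.X326.Top.P2
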